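import Vale.Agent.P168.AssemblyMP.Trial

/-! Limit arrays are approximated by trial states: the assembly. -/

open MeasureTheory ProbabilityTheory Filter
open scoped BigOperators NNReal ENNReal

noncomputable section

namespace Vale.Agent.P168.AssemblyMP

variable {ν : Measure Arr} {ρ : ℝ}

/-- The coarse levels of a monotone partition. -/
theorem exists_level (hT : IsTreeArray ν ρ) {ι : ℝ → ℤ} (hι : Monotone ι) :
    ∃ (r : ℕ) (lev : ℝ → Fin (r + 1)) (cell : Fin (r + 1) → ℤ), IsLevel ν lev ∧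
      Function.Injective cell ∧
      ∀ᵐ ω ∂ν, ∀ a b : ℕ, a ≠ b → cell (lev (rbar a b ω)) = ι (rbar a b ω) := by
  classical
  have := hT.prob
  set μ := overlapLaw ν with hμ
  have : IsProbabilityMeasure μ :=
    Measure.isProbabilityMeasure_map (measurable_rbar 0 1).aemeasurable
  set Z := (Finset.Icc (ι (-ρ)) (ι ρ)).filter fun z => μ (ι ⁻¹' {z}) ≠ 0 with hZ
  have hae : ∀ᵐ x ∂μ, ι x ∈ Z := by
    have h1 : ∀ᵐ x ∂μ, ∀ z : ℤ, μ (ι ⁻¹' {z}) = 0 → ι x ≠ z := by
      refine ae_all_iff.2 fun z => ?_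
      by_cases hz : μ (ι ⁻¹' {z}) = 0
      · filter_upwards [measure_eq_zero_iff_ae_notMem.1 hz] with x hx _ using hx
      · exact Eventually.of_forall fun x h => absurd h hz
    filter_upwards [h1, rbar_mem hT] with x hx hx'
    exact Finset.mem_filter.2
      ⟨Finset.mem_Icc.2 ⟨hι hx'.1, hι hx'.2⟩, fun h => hx _ h rfl⟩
  have hne : Z.Nonempty := by
    obtain ⟨x, hx⟩ := hae.exists
    exact ⟨_, hx⟩
  obtain ⟨r, hr⟩ : ∃ r, Z.card = r + 1 := ⟨Z.card - 1, by have := hne.card_pos; omega⟩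
  set cell := Z.orderEmbOfFin hr with hcell
  let idx : ℤ → Fin (r + 1) := fun z =>
    ⟨(Finset.univ.filter fun i => cell i ≤ z).card - 1, by
      have := (Finset.univ.filter fun i => cell i ≤ z).card_le_univ
      simp only [Fintype.card_fin] at this
      omega⟩
  let lev : ℝ → Fin (r + 1) := fun x => idx (ι x)
  have hidx : ∀ p, idx (cell p) = p := by
    intro p
    refine Fin.ext ?_
    have : (Finset.univ.filter fun i => cell i ≤ cell p) = Finset.Iic p := by
      ext i; simp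
    simp only [idx, this, Fin.card_Iic, Nat.add_sub_cancel]
  have hmono : Monotone lev := by
    intro x y hxy
    rw [Fin.le_def]
    refine Nat.sub_le_sub_right (Finset.card_le_card fun i hi => ?_) 1
    simp only [Finset.mem_filter, Finset.mem_univ, true_and] at hi ⊢
    exact hi.trans (hι hxy)
  have hmeas : Measurable lev := (measurable_from_top (f := idx)).comp hι.measurable
  have hmass : ∀ p, 0 < μ.real (lev ⁻¹' {p}) := by
    intro p
    have hmem : cell p ∈ Z := Z.orderEmbOfFin_mem hr p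
    have hsub : ι ⁻¹' {cell p} ⊆ lev ⁻¹' {p} := fun x (hx : ι x = cell p) => by
      simp [lev, hx, hidx]
    exact (ENNReal.toReal_pos (Finset.mem_filter.1 hmem).2 (measure_ne_top μ _)).trans_le
      (measureReal_mono hsub)
  refine ⟨r, lev, cell, ⟨hmono, hmeas, hmass⟩, cell.injective, ?_⟩
  refine ae_all_iff.2 fun a => ae_all_iff.2 fun b => ?_
  by_cases hab : a = b
  · exact Eventually.of_forall fun ω h => absurd hab h
  rw [hμ, ← map_rbar hT.toIsGGArray hab] at hae
  filter_upwards [ae_of_ae_map (measurable_rbar a b).aemeasurable hae] with ω hω _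
  obtain ⟨p, hp⟩ : ∃ p, cell p = ι (rbar a b ω) := by
    have : ι (rbar a b ω) ∈ Set.range cell := by
      rw [hcell, Finset.range_orderEmbOfFin]
      exact hω
    exact this
  simp [lev, ← hp, hidx]

/-- The values of the multi-overlaps from the structure theorem. -/
theorem exists_kap {ι : ℝ → ℤ} {r : ℕ} {lev : ℝ → Fin (r + 1)}
    {cell : Fin (r + 1) → ℤ} (hcell : Function.Injective cell)
    (hc : ∀ᵐ ω ∂ν, ∀ a b : ℕ, a ≠ b → cell (lev (rbar a b ω)) = ι (rbar a b ω))
    {n₀ : ℕ} {ε : ℝ}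
    (hS : ∀ D ≤ n₀, ∀ τ : Fin D → Fin D → ℤ, ∃ k : ℝ, |k| ≤ 1 ∧
      ∀ E : Set (Mat D), MeasurableSet E →
        ∫ ω in {ω | tmat (idRep D) ω ∈ E ∧ ∀ a b : Fin D, a ≠ b → ι (rbar a b ω) = τ a b},
            |rset (List.ofFn (idRep D)) ω - k| ∂ν ≤
          ε * ν.real {ω | tmat (idRep D) ω ∈ E ∧
            ∀ a b : Fin D, a ≠ b → ι (rbar a b ω) = τ a b}) :
    ∃ κ : (D : ℕ) → Shape r D → ℝ, KapSpec ν lev n₀ ε κ := by
  classical
  have h : ∀ (D : ℕ) (w : Shape r D), ∃ k : ℝ, D ≤ n₀ → |k| ≤ 1 ∧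
      ∀ E : Set (Mat D), MeasurableSet E →
        ∫ ω in {ω | tmat (idRep D) ω ∈ E ∧ shp lev D ω = w},
            |rset (List.ofFn (idRep D)) ω - k| ∂ν ≤
          ε * ν.real {ω | tmat (idRep D) ω ∈ E ∧ shp lev D ω = w} := by
    intro D w
    by_cases hD : D ≤ n₀
    swap
    · exact ⟨0, fun h => absurd h hD⟩
    by_cases hw : ∀ a, w a a = Fin.last r
    swap
    · refine ⟨0, fun _ => ⟨by simp, fun E _ => ?_⟩⟩
      have he : {ω : Arr | tmat (idRep D) ω ∈ E ∧ shp lev D ω = w} = ∅ := by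
        ext ω
        simp only [Set.mem_ofPred_eq, Set.mem_empty_iff_false, iff_false, not_and]
        intro _ e
        exact hw fun a => by rw [← e]; simp [shp, shapeOf]
      simp [he]
    obtain ⟨k, hk, hkE⟩ := hS D hD fun a b => cell (w a b)
    refine ⟨k, fun _ => ⟨hk, fun E hE => ?_⟩⟩
    have he : ({ω : Arr | tmat (idRep D) ω ∈ E ∧ shp lev D ω = w} : Set Arr) =ᵐ[ν]
        ({ω : Arr | tmat (idRep D) ω ∈ E ∧
          ∀ a b : Fin D, a ≠ b → ι (rbar a b ω) = cell (w a b)} : Set Arr) := by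
      refine eventuallyEq_set.2 ?_
      filter_upwards [hc] with ω hω
      refine and_congr_right fun _ => ⟨fun e a b hab => ?_, fun e => ?_⟩
      · rw [← hω a b (Fin.val_ne_of_ne hab), ← e]
        simp [shp, shapeOf, hab, tmat, idRep]
      · funext a b
        by_cases hab : a = b
        · simp [shp, shapeOf, hab, hw]
        · refine hcell ?_
          simp only [shp, shapeOf, if_neg hab, tmat, idRep]
          rw [hω a b (Fin.val_ne_of_ne hab), e a b hab]
    rw [setIntegral_congr_set he, measureReal_congr he]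
    exact hkE E hE
  choose κ hκ using h
  exact ⟨κ, fun D hD w => hκ D w hD⟩

theorem spinProd_finset {n : ℕ} (s : Finset (Fin n)) (i : ℕ) (ω : Arr) :
    spinProd (List.ofFn fun j => ((s.orderEmbOfFin rfl j : Fin n) : ℕ)) i ω =
      ∏ l ∈ s, spin (ω.1 l i) := by
  rw [spinProd_ofFn]
  have h := Finset.prod_map Finset.univ (s.orderEmbOfFin rfl).toEmbedding
    (fun l : Fin n => spin (ω.1 l i))
  rw [Finset.map_orderEmbOfFin_univ] at h
  exact h.symm

theorem abs_mpSiteCorr {r n : ℕ} {x : (Fin (r + 1) → ℝ) → ℝ} (hx : ∀ ω, |x ω| ≤ 1)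
    (v : Shape r n) (A : Finset (Fin n)) : |mpSiteCorr x v A| ≤ 1 := by
  have h : ∀ ω₀, |∫ ω : Fin r → Fin n → ℝ, ∏ l ∈ A, x (Fin.cons ω₀ (shapeMarks v ω l))
      ∂(Measure.pi fun _ => Measure.pi fun _ => unif)| ≤ 1 := fun ω₀ => by
    have h1 : ∀ ω : Fin r → Fin n → ℝ, ‖∏ l ∈ A, x (Fin.cons ω₀ (shapeMarks v ω l))‖ ≤ 1 :=
      fun ω => by
        rw [Real.norm_eq_abs, Finset.abs_prod]
        exact Finset.prod_le_one (fun l _ => abs_nonneg _) fun l _ => hx _
    simpa using norm_integral_le_of_norm_le_const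
      (μ := Measure.pi fun _ : Fin r => Measure.pi fun _ : Fin n => unif)
      (Eventually.of_forall h1)
  simpa [mpSiteCorr] using norm_integral_le_of_norm_le_const (μ := unif)
    (f := fun ω₀ => ∫ ω : Fin r → Fin n → ℝ, ∏ l ∈ A, x (Fin.cons ω₀ (shapeMarks v ω l))
      ∂(Measure.pi fun _ => Measure.pi fun _ => unif)) (C := 1) (Eventually.of_forall h)

/-- The two moment families are close. -/
theorem close_of_trial (hT : IsTreeArray ν ρ) {r : ℕ} {lev : ℝ → Fin (r + 1)}
    (hl : IsLevel ν lev) {n₀ : ℕ} {ε e : ℝ} (hε : 0 ≤ ε) (hε1 : ε ≤ 1)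
    {κ : (D : ℕ) → Shape r D → ℝ} (hκ : KapSpec ν lev n₀ ε κ)
    {x : (Fin (r + 1) → ℝ) → ℝ} (hx : ∀ ω, |x ω| ≤ 1)
    (hcorr : ∀ (n : ℕ), n ≤ n₀ → ∀ (v : Shape r n), IsUltra v → ∀ A : Finset (Fin n),
      |mpSiteCorr x v A - κ A.card (subShape v fun i => A.orderEmbOfFin rfl i)| ≤ e)
    {M n : ℕ} (hn : n ≤ n₀) (A : Fin M → Finset (Fin n)) :
    |mpMoment (expo ν lev) x A - arrayMoment ν A| ≤ M * (ε + e) := by
  classical
  have := hT.prob
  set L : Fin M → List ℕ := fun i =>
    List.ofFn fun j => (((A i).orderEmbOfFin rfl j : Fin n) : ℕ) with hL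
  set k : Shape r n → Fin M → ℝ := fun v i =>
    κ (A i).card (subShape v fun j => (A i).orderEmbOfFin rfl j) with hk
  set P : Shape r n → ℝ := fun v => ν.real {ω | shp lev n ω = v} with hP
  have hcard : ∀ i, (A i).card ≤ n₀ := fun i =>
    ((Finset.card_le_univ _).trans (by simp)).trans hn
  have hk1 : ∀ v i, |k v i| ≤ 1 := fun v i => (hκ _ (hcard i) _).1
  have hmu : ∀ v : Shape r n, Measurable fun ω : Arr => shpInd lev v ω * ∏ i, rset (L i) ω :=
    fun v =>
    (measurable_shpInd hl v).mul (Finset.measurable_fun_prod _ fun i _ => measurable_rset _)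
  have hbd : ∀ (v : Shape r n) (c : ℝ) ω, |c| ≤ 1 → |shpInd lev v ω * c| ≤ 1 := fun v c ω hc => by
    unfold shpInd
    split_ifs <;> simp [hc]
  have hR1 : ∀ ω, |∏ i, rset (L i) ω| ≤ 1 := fun ω => by
    rw [Finset.abs_prod]
    exact Finset.prod_le_one (fun i _ => abs_nonneg _) fun i _ => abs_rset _ _
  have hsum : ∀ ω, ∑ v : Shape r n, shpInd lev v ω = 1 := fun ω => by
    simp [shpInd]
  have hPsum : ∑ v, P v = 1 := by
    simp only [hP, ← integral_shpInd hl]
    rw [← integral_finsetSum _ fun v _ => integrable_bdd (measurable_shpInd hl v) 1 fun ω => by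
      simpa using hbd v 1 ω (by simp)]
    simp [hsum]
  have harr : arrayMoment ν A = ∑ v : Shape r n, ∫ ω, shpInd lev v ω * ∏ i, rset (L i) ω ∂ν := by
    have h1 := hT.site_factor 0 M L (fun _ => 1) measurable_const fun T => by simp
    simp only [one_mul, hL, spinProd_finset] at h1
    rw [arrayMoment, h1, ← integral_finsetSum _ fun v _ =>
      integrable_bdd (hmu v) 1 fun ω => hbd v _ ω (hR1 ω)]
    refine integral_congr_ae (Eventually.of_forall fun ω => ?_)
    simp only [← Finset.sum_mul, hsum, one_mul, hL]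
  have hmp : mpMoment (expo ν lev) x A = ∑ v : Shape r n, P v * ∏ i, mpSiteCorr x v (A i) := by
    simp only [mpMoment, hP, shp_law hT hl]
  have hterm : ∀ v : Shape r n, |P v * ∏ i, mpSiteCorr x v (A i) -
      ∫ ω, shpInd lev v ω * ∏ i, rset (L i) ω ∂ν| ≤ P v * (M * (ε + e)) := by
    intro v
    have h1 : |(∫ ω, shpInd lev v ω * ∏ i, rset (L i) ω ∂ν) - P v * ∏ i, k v i| ≤
        P v * (M * ε) := by
      have i1 : Integrable (fun ω => shpInd lev v ω * ∏ i, rset (L i) ω) ν :=
        integrable_bdd (hmu v) 1 fun ω => hbd v _ ω (hR1 ω)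
      have i2 : Integrable (fun ω => shpInd lev v ω * ∏ i, k v i) ν :=
        integrable_bdd ((measurable_shpInd hl v).mul_const _) 1 fun ω => hbd v _ ω (by
          rw [Finset.abs_prod]
          exact Finset.prod_le_one (fun i _ => abs_nonneg _) fun i _ => hk1 v i)
      have i3 : ∀ i, Integrable (fun ω => shpInd lev v ω * |rset (L i) ω - k v i|) ν := fun i =>
        integrable_bdd ((measurable_shpInd hl v).mul ((measurable_rset _).sub_const _).abs) 2
          fun ω => by
            unfold shpInd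
            split_ifs
            · rw [one_mul, abs_abs]
              linarith [abs_sub (rset (L i) ω) (k v i), abs_rset (L i) ω, hk1 v i]
            · simp
      have e1 : P v * ∏ i, k v i = ∫ ω, shpInd lev v ω * ∏ i, k v i ∂ν := by
        rw [integral_mul_const, integral_shpInd hl]
      rw [e1, ← integral_sub i1 i2]
      refine abs_integral_le_integral_abs.trans ?_
      refine (integral_mono (i1.sub i2).abs (integrable_finsetSum _ fun i _ => i3 i)
        (g := fun ω => ∑ i, shpInd lev v ω * |rset (L i) ω - k v i|) fun ω => ?_).trans ?_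
      · simp only [Pi.sub_apply, ← mul_sub, abs_mul, ← Finset.mul_sum]
        rw [abs_of_nonneg (by unfold shpInd; split_ifs <;> simp : (0 : ℝ) ≤ shpInd lev v ω)]
        exact mul_le_mul_of_nonneg_left (abs_prod_sub_prod _ _ _ (fun i _ => abs_rset _ _)
          fun i _ => hk1 v i) (by unfold shpInd; split_ifs <;> simp)
      · rw [integral_finsetSum _ fun i _ => i3 i]
        refine (Finset.sum_le_sum fun i _ => key hT hl hε hε1 hκ (hcard i)
          (fun j => (A i).orderEmbOfFin rfl j) ((A i).orderEmbOfFin rfl).injective v).trans ?_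
        simp only [Finset.sum_const, Finset.card_univ, Fintype.card_fin, nsmul_eq_mul]
        exact le_of_eq (by ring)
    have h2 : |P v * ∏ i, mpSiteCorr x v (A i) - P v * ∏ i, k v i| ≤ P v * (M * e) := by
      rw [← mul_sub, abs_mul, abs_of_nonneg (show 0 ≤ P v from measureReal_nonneg)]
      by_cases hv : IsUltra v
      · refine mul_le_mul_of_nonneg_left ?_ measureReal_nonneg
        refine (abs_prod_sub_prod _ _ _ (fun i _ => abs_mpSiteCorr hx v _)
          fun i _ => hk1 v i).trans ?_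
        refine (Finset.sum_le_sum fun i _ => hcorr n hn v hv (A i)).trans (le_of_eq ?_)
        simp
      · have h0 : ν {ω | shp lev n ω = v} = 0 :=
          measure_mono_null (fun ω (hω : shp lev n ω = v) =>
            show ¬ IsUltra (shp lev n ω) by rw [hω]; exact hv) (shp_ultra hT hl n)
        simp [hP, measureReal_def, h0]
    rw [abs_le] at h1 h2 ⊢
    exact ⟨by linarith [h1.2, h2.1], by linarith [h1.1, h2.2]⟩
  rw [hmp, harr, ← Finset.sum_sub_distrib]
  refine (Finset.abs_sum_le_sum_abs _ _).trans ((Finset.sum_le_sum fun v _ => hterm v).trans ?_)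
  rw [← Finset.sum_mul, hPsum, one_mul]

end AssemblyMP

open AssemblyMP in
/-- Module 6: limit arrays are approximated by trial states. -/
theorem assemblyMP_stmt : AssemblyMPStmt := by
  intro hTree hCore hStr ν hν M₀ n₀ δ hδ
  obtain ⟨ρ, hT⟩ := hTree ν hν.toIsGGArray
  have hC := hCore ν ρ hν hT
  set ε₀ := δ / (4 * ((M₀ : ℝ) + 1)) with hε₀
  have hε₀p : 0 < ε₀ := by positivity
  set ε := min 1 ε₀ with hεdef
  have hε : 0 < ε := lt_min one_pos hε₀p
  choose dd hdd hstr using fun D => hStr ν ρ hC D ε hε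
  set η := (Finset.range (n₀ + 1)).inf' Finset.nonempty_range_add_one dd with hη
  have hηp : 0 < η := (Finset.lt_inf'_iff _).2 fun D _ => hdd D
  set ι : ℝ → ℤ := fun z => ⌊z / η⌋ with hιdef
  have hιm : Monotone ι := fun a b hab => Int.floor_mono (div_le_div_of_nonneg_right hab hηp.le)
  have hmesh : ∀ D ≤ n₀, IsMesh ρ (dd D) ι := by
    intro D hD
    refine ⟨hιm, fun a _ b _ hab => ?_⟩
    have h1 := Int.abs_sub_lt_one_of_floor_eq_floor hab
    rw [← sub_div, abs_div, abs_of_pos hηp, div_lt_one hηp] at h1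
    exact h1.le.trans (Finset.inf'_le dd (Finset.mem_range.2 (Nat.lt_succ_of_le hD)))
  obtain ⟨r, lev, cell, hl, hcell, hc⟩ := exists_level hT hιm
  obtain ⟨κ, hκ⟩ := exists_kap (n₀ := n₀) (ε := ε) hcell hc
    fun D hD τ => hstr D ι (hmesh D hD) τ
  obtain ⟨B, hB⟩ := exists_nat_gt (2 * (r + 1) * (n₀ : ℝ) ^ 2 / ε₀)
  have hB0 : (0 : ℝ) < B := lt_of_le_of_lt (by positivity) hB
  obtain ⟨x, hxm, hx, hcorr⟩ :=
    exists_trial hT hl hε.le (min_le_left _ _) hκ B (by exact_mod_cast hB0)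
  refine ⟨r, expo ν lev, x, ⟨expo_pos hT hl, expo_lt_one hT hl, expo_strictMono hT hl, hxm, hx⟩,
    fun M n hM hn A => ?_⟩
  refine (close_of_trial hT hl hε.le (min_le_left _ _) hκ hx hcorr hn A).trans ?_
  have h1 : 2 * (r + 1) * (n₀ : ℝ) ^ 2 / B ≤ ε₀ := by
    rw [div_le_iff₀ hB0]
    rw [div_lt_iff₀ hε₀p] at hB
    linarith
  have h2 : ε ≤ ε₀ := min_le_right _ _
  have h3 : (M : ℝ) ≤ M₀ := by exact_mod_cast hM
  have h4 : ε₀ * (4 * ((M₀ : ℝ) + 1)) = δ := by
    rw [hε₀, div_mul_cancel₀]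
    positivity
  calc (M : ℝ) * (ε + (ε + 2 * (r + 1) * (n₀ : ℝ) ^ 2 / B))
      ≤ ((M₀ : ℝ) + 1) * (3 * ε₀) :=
        mul_le_mul (by linarith) (by linarith) (by positivity) (by positivity)
    _ ≤ δ := by nlinarith

end Vale.Agent.P168
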