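import Vale.Agent.P168.Statements

/-! Basic facts on arrays: measurability, bounds, renaming replicas. -/

open MeasureTheory ProbabilityTheory Filter
open scoped BigOperators NNReal ENNReal

noncomputable section

namespace Vale.Agent.P168.AssemblyMP

theorem abs_spin (s : Bool) : |spin s| = 1 := by
  cases s <;> simp [spin]

theorem abs_prod_spin {ι : Type*} (s : Finset ι) (f : ι → Bool) :
    |∏ l ∈ s, spin (f l)| = 1 := by
  simp [Finset.abs_prod, abs_spin]

theorem abs_spinProd (L : List ℕ) (i : ℕ) (ω : Arr) : |spinProd L i ω| = 1 := by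
  induction L with
  | nil => simp [spinProd]
  | cons a L ih =>
    simp only [spinProd, List.map_cons, List.prod_cons, abs_mul, abs_spin, one_mul] at ih ⊢
    exact ih

theorem measurable_spin_at (l i : ℕ) : Measurable fun ω : Arr => spin (ω.1 l i) :=
  (measurable_from_top (f := spin)).comp
    ((measurable_pi_apply i).comp ((measurable_pi_apply l).comp measurable_fst))

theorem measurable_kernel_at (g a b : ℕ) : Measurable fun ω : Arr => ω.2 g a b :=
  (measurable_pi_apply b).comp ((measurable_pi_apply a).comp
    ((measurable_pi_apply g).comp measurable_snd))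

theorem measurable_spinProd (L : List ℕ) (i : ℕ) : Measurable (spinProd L i) := by
  induction L with
  | nil => exact measurable_const
  | cons a L ih =>
    have : spinProd (a :: L) i = fun ω => spin (ω.1 a i) * spinProd L i ω := by
      funext ω; simp [spinProd]
    rw [this]
    exact (measurable_spin_at a i).mul ih

theorem measurable_rset (L : List ℕ) : Measurable (rset L) :=
  Measurable.limsup fun k => (Finset.measurable_fun_sum _ fun i _ =>
    measurable_spinProd L i).div_const _

theorem abs_limsup_le {u : ℕ → ℝ} (h : ∀ k, |u k| ≤ 1) : |limsup u atTop| ≤ 1 := by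
  have hb : IsBoundedUnder (· ≤ ·) atTop u := isBoundedUnder_of ⟨1, fun k => (abs_le.1 (h k)).2⟩
  have hb' : IsBoundedUnder (· ≥ ·) atTop u := isBoundedUnder_of ⟨-1, fun k => (abs_le.1 (h k)).1⟩
  exact abs_le.2 ⟨le_limsup_of_frequently_le (Eventually.of_forall fun k => (abs_le.1 (h k)).1).frequently hb,
    limsup_le_of_le hb'.isCoboundedUnder_le (Eventually.of_forall fun k => (abs_le.1 (h k)).2)⟩

theorem abs_rset (L : List ℕ) (ω : Arr) : |rset L ω| ≤ 1 := by
  refine abs_limsup_le fun k => ?_
  rw [abs_div, abs_of_pos (by positivity : (0 : ℝ) < 4 ^ k), div_le_one (by positivity)]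
  refine (Finset.abs_sum_le_sum_abs _ _).trans ?_
  simp [abs_spinProd]

/-- Average spin product of the replicas `u`, from the data. -/
def rsetData {D : ℕ} (z : RepData D) : ℝ :=
  limsup (fun k : ℕ => (∑ i ∈ Finset.range (4 ^ k), ∏ l, spin (z.1 l i)) / (4 : ℝ) ^ k) atTop

theorem measurable_rsetData (D : ℕ) : Measurable (rsetData (D := D)) :=
  Measurable.limsup fun k => (Finset.measurable_fun_sum _ fun i _ =>
    Finset.measurable_fun_prod _ fun l _ => (measurable_from_top (f := spin)).comp
      ((measurable_pi_apply i).comp ((measurable_pi_apply l).comp measurable_fst))).div_const _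

theorem abs_rsetData {D : ℕ} (z : RepData D) : |rsetData z| ≤ 1 := by
  refine abs_limsup_le fun k => ?_
  rw [abs_div, abs_of_pos (by positivity : (0 : ℝ) < 4 ^ k), div_le_one (by positivity)]
  refine (Finset.abs_sum_le_sum_abs _ _).trans ?_
  simp [abs_prod_spin]

theorem spinProd_ofFn {D : ℕ} (u : Fin D → ℕ) (i : ℕ) (ω : Arr) :
    spinProd (List.ofFn u) i ω = ∏ l, spin (ω.1 (u l) i) := by
  rw [spinProd, List.map_ofFn, List.prod_ofFn]
  rfl

theorem rset_idRep {D : ℕ} (ω : Arr) :
    rset (List.ofFn (idRep D)) ω = rsetData (repData D ω) := by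
  simp only [rset, rsetData, spinProd_ofFn]
  rfl

/-- The overlap matrix from the data. -/
def tmatData {n : ℕ} (z : RepData n) : Mat n := fun a b => ∑' g, kWeight g * z.2 g a b

theorem tmatData_repData (n : ℕ) (ω : Arr) : tmatData (repData n ω) = tmat (idRep n) ω := rfl

theorem measurable_tmatData (n : ℕ) : Measurable (tmatData (n := n)) := by
  refine measurable_pi_lambda _ fun a => measurable_pi_lambda _ fun b => Measurable.tsum fun g => ?_
  have h : Measurable fun z : RepData n => z.2 g a b := by fun_prop
  exact h.const_mul _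

theorem measurable_rbar (a b : ℕ) : Measurable (rbar a b) :=
  Measurable.tsum fun g => (measurable_kernel_at g a b).const_mul _

theorem measurable_tmat {n : ℕ} (u : Fin n → ℕ) : Measurable (tmat u) :=
  measurable_pi_lambda _ fun a => measurable_pi_lambda _ fun b => measurable_rbar (u a) (u b)

theorem measurable_repData (n : ℕ) : Measurable (repData n) := by
  unfold repData
  fun_prop

theorem measurable_permRep (π : Equiv.Perm ℕ) : Measurable (permRep π) :=
  (measurable_pi_lambda _ fun l => (measurable_pi_apply (π l)).comp measurable_fst).prodMk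
    (measurable_pi_lambda _ fun g => measurable_pi_lambda _ fun a => measurable_pi_lambda _
      fun b => measurable_kernel_at g (π a) (π b))

theorem rbar_permRep (π : Equiv.Perm ℕ) (a b : ℕ) (ω : Arr) :
    rbar a b (permRep π ω) = rbar (π a) (π b) ω := rfl

theorem rset_permRep (π : Equiv.Perm ℕ) (L : List ℕ) (ω : Arr) :
    rset L (permRep π ω) = rset (L.map π) ω := by
  simp only [rset, spinProd, List.map_map]
  rfl

theorem integral_permRep {ν : Measure Arr} (h : IsGGArray ν) (π : Equiv.Perm ℕ) {F : Arr → ℝ}
    (hF : Measurable F) : ∫ ω, F (permRep π ω) ∂ν = ∫ ω, F ω ∂ν := by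
  conv_rhs => rw [← h.exch_rep π]
  rw [integral_map (measurable_permRep π).aemeasurable hF.aestronglyMeasurable]

theorem integrable_bdd {ν : Measure Arr} [IsFiniteMeasure ν] {F : Arr → ℝ} (hF : Measurable F)
    (C : ℝ) (h : ∀ ω, |F ω| ≤ C) : Integrable F ν :=
  Integrable.of_bound hF.aestronglyMeasurable C (Eventually.of_forall h)

theorem map_rbar {ν : Measure Arr} (h : IsGGArray ν) {a b : ℕ} (hab : a ≠ b) :
    ν.map (rbar a b) = overlapLaw ν := by
  obtain ⟨π, h0, h1⟩ : ∃ π : Equiv.Perm ℕ, π 0 = a ∧ π 1 = b := by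
    refine ⟨Equiv.swap (Equiv.swap 0 a 1) b * Equiv.swap 0 a, ?_, ?_⟩
    · rw [Equiv.Perm.mul_apply, Equiv.swap_apply_left]
      refine Equiv.swap_apply_of_ne_of_ne (fun e => ?_) hab
      have : Equiv.swap 0 a 0 = a := Equiv.swap_apply_left 0 a
      exact one_ne_zero ((Equiv.swap 0 a).injective (this.trans e)).symm
    · simp
  have : rbar a b = rbar 0 1 ∘ permRep π := by
    funext ω; simp [rbar_permRep, h0, h1]
  rw [this, ← Measure.map_map (measurable_rbar 0 1) (measurable_permRep π), h.exch_rep π]
  rfl

theorem rbar_mem {ν : Measure Arr} {ρ : ℝ} (h : IsTreeArray ν ρ) :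
    ∀ᵐ x ∂overlapLaw ν, x ∈ Set.Icc (-ρ) ρ := by
  refine (ae_map_iff (measurable_rbar 0 1).aemeasurable measurableSet_Icc).2 ?_
  filter_upwards [h.rbar_le 0 1] with ω hω
  exact abs_le.1 hω

end Vale.Agent.P168.AssemblyMP
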