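import Vale.Agent.P168.AssemblyMP.Tree

/-! Multi-overlaps of sub-tuples given the shape of a larger tuple. -/

open MeasureTheory ProbabilityTheory Filter
open scoped BigOperators NNReal ENNReal

noncomputable section

namespace Vale.Agent.P168.AssemblyMP

variable {r : ℕ} {ν : Measure Arr} {ρ : ℝ} {lev : ℝ → Fin (r + 1)}

/-- The shape of a sub-tuple. -/
def subShape {n D : ℕ} (v : Shape r n) (u : Fin D → Fin n) : Shape r D :=
  fun a b => v (u a) (u b)

/-- The values of the multi-overlaps given by the structure theorem. -/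
def KapSpec (ν : Measure Arr) (lev : ℝ → Fin (r + 1)) (n₀ : ℕ) (ε : ℝ)
    (κ : (D : ℕ) → Shape r D → ℝ) : Prop :=
  ∀ D ≤ n₀, ∀ w : Shape r D, |κ D w| ≤ 1 ∧ ∀ E : Set (Mat D), MeasurableSet E →
    ∫ ω in {ω | tmat (idRep D) ω ∈ E ∧ shp lev D ω = w},
        |rset (List.ofFn (idRep D)) ω - κ D w| ∂ν ≤
      ε * ν.real {ω | tmat (idRep D) ω ∈ E ∧ shp lev D ω = w}

/-- A conditional expectation given an overlap matrix, from bounds on every event. -/
theorem exists_cond [IsProbabilityMeasure ν] {D : ℕ} (F : RepData D → ℝ) (hF : Measurable F)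
    (h0 : ∀ z, 0 ≤ F z) (h1 : ∀ z, F z ≤ 1) (c : ℝ) (hc : 0 ≤ c) (hc1 : c ≤ 1)
    (hE : ∀ E : Set (Mat D), MeasurableSet E →
      ∫ ω in tmat (idRep D) ⁻¹' E, F (repData D ω) ∂ν ≤ c * ν.real (tmat (idRep D) ⁻¹' E)) :
    ∃ f : Mat D → ℝ, Measurable f ∧ (∀ T, |f T| ≤ 1) ∧ (∀ T, f T ≤ c) ∧
      ∀ g : Mat D → ℝ, Measurable g → (∀ T, |g T| ≤ 1) →
        ∫ ω, F (repData D ω) * g (tmat (idRep D) ω) ∂ν =
          ∫ ω, f (tmat (idRep D) ω) * g (tmat (idRep D) ω) ∂ν := by
  set T := tmat (idRep D) with hTdef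
  have hTm : Measurable T := measurable_tmat _
  have hFm : Measurable fun ω => F (repData D ω) := hF.comp (measurable_repData D)
  have hint : Integrable (fun ω => F (repData D ω)) ν :=
    integrable_bdd hFm 1 fun ω => abs_le.2 ⟨by linarith [h0 (repData D ω)], h1 _⟩
  set d : Arr → ℝ≥0∞ := fun ω => ENNReal.ofReal (F (repData D ω)) with hd
  have : IsFiniteMeasure (ν.withDensity d) :=
    isFiniteMeasure_withDensity_ofReal hint.2
  set η := (ν.withDensity d).map T with hη
  set μ := ν.map T with hμ
  have : IsProbabilityMeasure μ := Measure.isProbabilityMeasure_map hTm.aemeasurable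
  have hle : η ≤ ENNReal.ofReal c • μ := by
    refine Measure.le_iff.2 fun E hEm => ?_
    rw [Measure.smul_apply, smul_eq_mul, hη, hμ, Measure.map_apply hTm hEm,
      Measure.map_apply hTm hEm, withDensity_apply _ (hTm hEm), hd,
      ← ofReal_integral_eq_lintegral_ofReal hint.integrableOn
        (Eventually.of_forall fun ω => h0 _),
      ← ofReal_measureReal (measure_ne_top ν _), ← ENNReal.ofReal_mul hc]
    exact ENNReal.ofReal_le_ofReal (hE E hEm)
  have hac : η ≪ μ := Measure.absolutelyContinuous_of_le_smul hle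
  have hb : ∀ᵐ t ∂μ, η.rnDeriv μ t ≤ ENNReal.ofReal c := by
    refine ae_le_of_forall_setLIntegral_le_of_sigmaFinite (Measure.measurable_rnDeriv _ _)
      fun s hs _ => ?_
    rw [Measure.setLIntegral_rnDeriv hac, setLIntegral_const]
    exact hle s
  refine ⟨fun t => min (η.rnDeriv μ t).toReal c,
    (Measure.measurable_rnDeriv _ _).ennreal_toReal.min measurable_const,
    fun t => abs_le.2 ⟨le_trans (by norm_num) (le_min ENNReal.toReal_nonneg hc),
      (min_le_right _ _).trans hc1⟩, fun t => min_le_right _ _, fun g hg _ => ?_⟩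
  calc ∫ ω, F (repData D ω) * g (T ω) ∂ν
      = ∫ ω, g (T ω) ∂ν.withDensity d := by
        rw [integral_withDensity_eq_integral_toReal_smul hFm.ennreal_ofReal
          (Eventually.of_forall fun ω => ENNReal.ofReal_lt_top)]
        refine integral_congr_ae (Eventually.of_forall fun ω => ?_)
        simp [ENNReal.toReal_ofReal (h0 _)]
    _ = ∫ t, g t ∂η := (integral_map hTm.aemeasurable hg.aestronglyMeasurable).symm
    _ = ∫ t, (η.rnDeriv μ t).toReal • g t ∂μ := (integral_rnDeriv_smul hac).symm
    _ = ∫ t, min (η.rnDeriv μ t).toReal c * g t ∂μ := by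
        refine integral_congr_ae ?_
        filter_upwards [hb] with t ht
        rw [smul_eq_mul, min_eq_left]
        have := ENNReal.toReal_mono ENNReal.ofReal_ne_top ht
        rwa [ENNReal.toReal_ofReal hc] at this
    _ = _ := integral_map hTm.aemeasurable
        (((Measure.measurable_rnDeriv _ _).ennreal_toReal.min measurable_const).mul
          hg).aestronglyMeasurable

theorem shp_castAdd (lev : ℝ → Fin (r + 1)) (D k : ℕ) (ω : Arr) :
    subShape (shp lev (D + k) ω) (Fin.castAdd k) = shp lev D ω := by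
  funext a b
  simp [subShape, shp, shapeOf, tmat, idRep]

/-- The bound for the first `D` of `D + k` replicas. -/
theorem key_init (hT : IsTreeArray ν ρ) (hl : IsLevel ν lev) {n₀ : ℕ} {ε : ℝ} (hε : 0 ≤ ε)
    (hε1 : ε ≤ 1) {κ : (D : ℕ) → Shape r D → ℝ} (hκ : KapSpec ν lev n₀ ε κ) {D : ℕ}
    (hD : D ≤ n₀) (k : ℕ) (v : Shape r (D + k)) :
    ∫ ω, shpInd lev v ω *
        |rset (List.ofFn (idRep D)) ω - κ D (subShape v (Fin.castAdd k))| ∂ν ≤
      ε * ν.real {ω | shp lev (D + k) ω = v} := by
  have := hT.prob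
  set w := subShape v (Fin.castAdd k) with hw
  obtain ⟨hκ1, hκE⟩ := hκ D hD w
  set F : RepData D → ℝ := fun z =>
    if shapeOf lev (tmatData z) = w then |rsetData z - κ D w| / 2 else 0 with hF
  have hFm : Measurable F := Measurable.ite
    (((measurable_shapeOf hl D).comp (measurable_tmatData D)) (measurableSet_singleton w))
    (((measurable_rsetData D).sub_const _).abs.div_const 2) measurable_const
  have hF0 : ∀ z, 0 ≤ F z := fun z => by
    simp only [hF]; split_ifs
    · positivity
    · exact le_rfl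
  have hF1 : ∀ z, F z ≤ 1 := fun z => by
    simp only [hF]; split_ifs
    · have h2 := abs_sub (rsetData z) (κ D w)
      have h3 := abs_rsetData z
      linarith
    · exact zero_le_one
  have hE : ∀ E : Set (Mat D), MeasurableSet E →
      ∫ ω in tmat (idRep D) ⁻¹' E, F (repData D ω) ∂ν ≤
        ε / 2 * ν.real (tmat (idRep D) ⁻¹' E) := by
    intro E hEm
    have hS := measurableSet_shp hl D w
    have hpt : ∀ ω, F (repData D ω) = ({ω | shp lev D ω = w} : Set Arr).indicator
        (fun ω => |rset (List.ofFn (idRep D)) ω - κ D w| / 2) ω := by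
      intro ω
      rw [Set.indicator_apply]
      simp only [hF, rset_idRep, Set.mem_ofPred_eq, tmatData_repData]
      rfl
    simp only [hpt]
    rw [setIntegral_indicator hS, integral_div,
      show tmat (idRep D) ⁻¹' E ∩ {ω | shp lev D ω = w} =
        {ω | tmat (idRep D) ω ∈ E ∧ shp lev D ω = w} from rfl]
    have hmono : ν.real {ω | tmat (idRep D) ω ∈ E ∧ shp lev D ω = w} ≤
        ν.real (tmat (idRep D) ⁻¹' E) := measureReal_mono fun ω hω => hω.1
    have := hκE E hEm
    have := mul_le_mul_of_nonneg_left hmono hε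
    linarith
  obtain ⟨f, hfm, hf1, hfc, hfg⟩ := exists_cond F hFm hF0 hF1 (ε / 2) (by linarith)
    (by linarith) hE
  set G : Mat (D + k) → ℝ := fun T => if shapeOf lev T = v then 1 else 0 with hG
  have hGm : Measurable G := Measurable.ite
    (measurable_shapeOf hl _ (measurableSet_singleton v)) measurable_const measurable_const
  have hG1 : ∀ T, |G T| ≤ 1 := fun T => by simp only [hG]; split_ifs <;> simp
  have e := hT.consistent D k F f hFm hfm
    (fun z => abs_le.2 ⟨by linarith [hF0 z], hF1 z⟩) hf1 hfg G hGm hG1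
  have eG : ∀ ω, G (tmat (idRep (D + k)) ω) = shpInd lev v ω := fun ω => rfl
  simp only [eG] at e
  have hpt : ∀ ω, shpInd lev v ω * |rset (List.ofFn (idRep D)) ω - κ D w| =
      2 * (F (repData D ω) * shpInd lev v ω) := by
    intro ω
    by_cases hv : shp lev (D + k) ω = v
    · have hw' : shapeOf lev (tmatData (repData D ω)) = w := by
        rw [hw, ← hv, shp_castAdd]
        rfl
      simp only [hF, if_pos hw', rset_idRep, shpInd, if_pos hv]
      ring
    · simp [shpInd, hv]
  simp only [hpt]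
  rw [integral_const_mul, e, ← integral_shpInd hl v]
  have hle : ∫ ω, f (tmat (idRep D) ω) * shpInd lev v ω ∂ν ≤
      ∫ ω, ε / 2 * shpInd lev v ω ∂ν := by
    refine integral_mono (integrable_bdd ((hfm.comp (measurable_tmat _)).mul
      (measurable_shpInd hl v)) 1 fun ω => ?_) (integrable_bdd ((measurable_shpInd hl v).const_mul
        _) 1 fun ω => ?_) fun ω => ?_
    · unfold shpInd
      split_ifs
      · simpa using hf1 _
      · simp
    · unfold shpInd
      split_ifs
      · rw [mul_one, abs_of_nonneg (by linarith : (0 : ℝ) ≤ ε / 2)]; linarith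
      · simp
    · unfold shpInd
      split_ifs
      · simpa using hfc _
      · simp
  rw [integral_const_mul] at hle
  linarith

theorem shp_permRep (lev : ℝ → Fin (r + 1)) {n : ℕ} (σ : Equiv.Perm (Fin n))
    (π : Equiv.Perm ℕ) (hπ : ∀ i : Fin n, π i = σ i) (ω : Arr) :
    shp lev n (permRep π ω) = subShape (shp lev n ω) σ := by
  funext a b
  simp [subShape, shp, shapeOf, tmat, idRep, rbar_permRep, hπ]

theorem subShape_perm_inj {n : ℕ} (σ : Equiv.Perm (Fin n)) {v w : Shape r n} :
    subShape v σ = subShape w σ ↔ v = w := by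
  refine ⟨fun h => funext fun a => funext fun b => ?_, fun h => h ▸ rfl⟩
  simpa [subShape] using congrFun (congrFun h (σ.symm a)) (σ.symm b)

/-- The bound for every sub-tuple. -/
theorem key (hT : IsTreeArray ν ρ) (hl : IsLevel ν lev) {n₀ : ℕ} {ε : ℝ} (hε : 0 ≤ ε)
    (hε1 : ε ≤ 1) {κ : (D : ℕ) → Shape r D → ℝ} (hκ : KapSpec ν lev n₀ ε κ) {D n : ℕ}
    (hD : D ≤ n₀) (u : Fin D → Fin n) (hu : Function.Injective u) (v : Shape r n) :
    ∫ ω, shpInd lev v ω *
        |rset (List.ofFn fun i => (u i : ℕ)) ω - κ D (subShape v u)| ∂ν ≤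
      ε * ν.real {ω | shp lev n ω = v} := by
  have := hT.prob
  obtain ⟨k, rfl⟩ : ∃ k, n = D + k :=
    ⟨n - D, by have := Fintype.card_le_of_injective u hu; simp at this; omega⟩
  have e : {x // x ∈ Set.range (Fin.castAdd k : Fin D → Fin (D + k))} ≃
      {x // x ∈ Set.range u} :=
    (Equiv.ofInjective _ (Fin.castAdd_injective D k)).symm.trans (Equiv.ofInjective u hu)
  obtain ⟨σ, hσ⟩ : ∃ σ : Equiv.Perm (Fin (D + k)), ∀ i, σ (Fin.castAdd k i) = u i := by
    refine ⟨((Equiv.ofInjective _ (Fin.castAdd_injective D k)).symm.trans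
      (Equiv.ofInjective u hu)).extendSubtype, fun i => ?_⟩
    rw [Equiv.extendSubtype_apply_of_mem _ _ ⟨i, rfl⟩]
    simp [Equiv.ofInjective_symm_apply]
  obtain ⟨π, hπ⟩ : ∃ π : Equiv.Perm ℕ, ∀ i : Fin (D + k), π i = σ i :=
    ⟨σ.extendDomain (Fin.equivSubtype), fun i =>
      Equiv.Perm.extendDomain_apply_image σ Fin.equivSubtype i⟩
  set w := subShape v σ with hw
  have hw' : subShape w (Fin.castAdd k) = subShape v u := by
    funext a b
    simp [hw, subShape, hσ]
  have h1 := key_init hT hl hε hε1 hκ hD k w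
  rw [hw'] at h1
  have hind : ∀ ω, shpInd lev w (permRep π ω) = shpInd lev v ω := by
    intro ω
    simp only [shpInd, shp_permRep lev σ π hπ, hw, subShape_perm_inj]
  have hset : ν.real {ω | shp lev (D + k) ω = w} = ν.real {ω | shp lev (D + k) ω = v} := by
    rw [← integral_shpInd hl, ← integral_shpInd hl,
      ← integral_permRep hT.toIsGGArray π (measurable_shpInd hl w)]
    simp only [hind]
  have hR : ∀ ω, rset (List.ofFn (idRep D)) (permRep π ω) =
      rset (List.ofFn fun i => (u i : ℕ)) ω := by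
    intro ω
    rw [rset_permRep, List.map_ofFn]
    congr 2
    funext i
    simp only [Function.comp, idRep]
    rw [← hσ i, ← hπ]
    rfl
  rw [← hset]
  refine le_trans (le_of_eq ?_) h1
  rw [← integral_permRep hT.toIsGGArray π (F := fun ω => shpInd lev w ω *
    |rset (List.ofFn (idRep D)) ω - κ D (subShape v u)|)
    ((measurable_shpInd hl w).mul ((measurable_rset _).sub_const _).abs)]
  simp only [hind, hR]

end Vale.Agent.P168.AssemblyMP
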