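import Vale.Agent.P168.AssemblyMP.Basic

/-! The law of the coarse tree of finitely many replicas. -/

open MeasureTheory ProbabilityTheory Filter
open scoped BigOperators NNReal ENNReal

noncomputable section

namespace Vale.Agent.P168.AssemblyMP

variable {r : ℕ}

/-- Shape of an overlap matrix through a level function. -/
def shapeOf (lev : ℝ → Fin (r + 1)) {n : ℕ} (T : Mat n) : Shape r n :=
  fun a b => if a = b then Fin.last r else lev (T a b)

/-- Shape of the first `n` replicas. -/
def shp (lev : ℝ → Fin (r + 1)) (n : ℕ) (ω : Arr) : Shape r n :=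
  shapeOf lev (tmat (idRep n) ω)

/-- The exponents of the coarse tree. -/
def expo (ν : Measure Arr) (lev : ℝ → Fin (r + 1)) (i : Fin r) : ℝ :=
  (overlapLaw ν).real {x | (lev x).val < i.val + 1}

/-- An ultrametric shape. -/
def IsUltra {n : ℕ} (v : Shape r n) : Prop :=
  (∀ a, v a a = Fin.last r) ∧ (∀ a b, v a b = v b a) ∧ ∀ a b c, min (v a b) (v b c) ≤ v a c

/-- A usable level function. -/
structure IsLevel (ν : Measure Arr) (lev : ℝ → Fin (r + 1)) : Prop where
  mono : Monotone lev
  meas : Measurable lev
  mass : ∀ p, 0 < (overlapLaw ν).real (lev ⁻¹' {p})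

variable {ν : Measure Arr} {ρ : ℝ} {lev : ℝ → Fin (r + 1)}

theorem measurable_shapeOf (hl : IsLevel ν lev) (n : ℕ) :
    Measurable (shapeOf lev : Mat n → Shape r n) := by
  refine measurable_pi_lambda _ fun a => measurable_pi_lambda _ fun b => ?_
  by_cases h : a = b
  · simp only [shapeOf, h, if_true]
    exact measurable_const
  · simp only [shapeOf, if_neg h]
    exact hl.meas.comp ((measurable_pi_apply b).comp (measurable_pi_apply a))

theorem measurable_shp (hl : IsLevel ν lev) (n : ℕ) : Measurable (shp lev n) :=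
  (measurable_shapeOf hl n).comp (measurable_tmat _)

theorem measurableSet_shp (hl : IsLevel ν lev) (n : ℕ) (v : Shape r n) :
    MeasurableSet {ω | shp lev n ω = v} :=
  measurable_shp hl n (measurableSet_singleton v)

theorem lev_preimage (hl : IsLevel ν lev) (S : Set (Fin (r + 1))) : MeasurableSet (lev ⁻¹' S) :=
  hl.meas MeasurableSet.of_discrete

theorem padded_expo (hT : IsTreeArray ν ρ) (lev : ℝ → Fin (r + 1)) (p : ℕ) :
    padded (expo ν lev) p = (overlapLaw ν).real {x | (lev x).val < p} := by
  have := hT.prob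
  have : IsProbabilityMeasure (overlapLaw ν) :=
    Measure.isProbabilityMeasure_map (measurable_rbar 0 1).aemeasurable
  unfold padded
  by_cases h0 : p = 0
  · simp [h0]
  rw [if_neg h0]
  by_cases h1 : p - 1 < r
  · rw [dif_pos h1, expo]
    congr 3
    ext x
    simp only
    omega
  · rw [dif_neg h1]
    have : {x | (lev x).val < p} = Set.univ := by
      ext x
      have := (lev x).isLt
      simp only [Set.mem_ofPred_eq, Set.mem_univ, iff_true]
      omega
    rw [this, probReal_univ]

theorem padded_nonneg (hT : IsTreeArray ν ρ) (lev : ℝ → Fin (r + 1)) (p : ℕ) :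
    0 ≤ padded (expo ν lev) p := by
  rw [padded_expo hT]
  exact measureReal_nonneg

theorem padded_lt_succ (hT : IsTreeArray ν ρ) (hl : IsLevel ν lev) {p : ℕ} (hp : p ≤ r) :
    padded (expo ν lev) p < padded (expo ν lev) (p + 1) := by
  have := hT.prob
  have : IsProbabilityMeasure (overlapLaw ν) :=
    Measure.isProbabilityMeasure_map (measurable_rbar 0 1).aemeasurable
  rw [padded_expo hT, padded_expo hT]
  have e : {x | (lev x).val < p + 1} =
      {x | (lev x).val < p} ∪ lev ⁻¹' {⟨p, Nat.lt_succ_iff.2 hp⟩} := by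
    ext x
    simp only [Set.mem_ofPred_eq, Set.mem_union, Set.mem_preimage, Set.mem_singleton_iff,
      Fin.ext_iff]
    omega
  rw [e, measureReal_union ?_ (lev_preimage hl _)]
  · linarith [hl.mass ⟨p, Nat.lt_succ_iff.2 hp⟩]
  · rw [Set.disjoint_left]
    intro x hx hx'
    simp only [Set.mem_ofPred_eq, Set.mem_preimage, Set.mem_singleton_iff] at hx hx'
    simp [hx'] at hx

theorem padded_mono_lt (hT : IsTreeArray ν ρ) (hl : IsLevel ν lev) :
    ∀ {p q : ℕ}, p < q → q ≤ r + 1 → padded (expo ν lev) p < padded (expo ν lev) q := by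
  intro p q hpq
  induction hpq with
  | refl => intro h; exact padded_lt_succ hT hl (by omega)
  | step _ ih => intro h; exact (ih (by omega)).trans (padded_lt_succ hT hl (by omega))

theorem expo_eq_padded (lev : ℝ → Fin (r + 1)) (i : Fin r) :
    expo ν lev i = padded (expo ν lev) (i.val + 1) := by
  simp [padded]

theorem expo_pos (hT : IsTreeArray ν ρ) (hl : IsLevel ν lev) (i : Fin r) :
    0 < expo ν lev i := by
  rw [expo_eq_padded]
  exact lt_of_le_of_lt (padded_nonneg hT lev 0) (padded_mono_lt hT hl (by omega) (by omega))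

theorem expo_lt_one (hT : IsTreeArray ν ρ) (hl : IsLevel ν lev) (i : Fin r) :
    expo ν lev i < 1 := by
  rw [expo_eq_padded]
  have h : padded (expo ν lev) (r + 1) = 1 := by simp [padded]
  rw [← h]
  exact padded_mono_lt hT hl (by omega) le_rfl

theorem expo_strictMono (hT : IsTreeArray ν ρ) (hl : IsLevel ν lev) :
    StrictMono (expo ν lev) := by
  intro i j hij
  rw [expo_eq_padded, expo_eq_padded]
  exact padded_mono_lt hT hl (by omega) (by omega)

theorem shp_ultra (hT : IsTreeArray ν ρ) (hl : IsLevel ν lev) (n : ℕ) :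
    ∀ᵐ ω ∂ν, IsUltra (shp lev n ω) := by
  have hs : ∀ᵐ ω ∂ν, ∀ a b : ℕ, rbar a b ω = rbar b a ω :=
    ae_all_iff.2 fun a => ae_all_iff.2 fun b => hT.rbar_symm a b
  have hu : ∀ᵐ ω ∂ν, ∀ a b c : ℕ, min (rbar a b ω) (rbar b c ω) ≤ rbar a c ω :=
    ae_all_iff.2 fun a => ae_all_iff.2 fun b => ae_all_iff.2 fun c => hT.ultra a b c
  filter_upwards [hs, hu] with ω hs hu
  refine ⟨fun a => by simp [shp, shapeOf], fun a b => ?_, fun a b c => ?_⟩
  · by_cases h : a = b
    · simp [h]
    · simp only [shp, shapeOf, if_neg h, if_neg (Ne.symm h), tmat]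
      rw [hs]
  · by_cases hac : a = c
    · simp [shp, shapeOf, hac, Fin.le_last]
    by_cases hab : a = b
    · subst hab; exact min_le_right _ _
    by_cases hbc : b = c
    · subst hbc; exact min_le_left _ _
    simp only [shp, shapeOf, if_neg hac, if_neg hab, if_neg hbc, tmat]
    rw [← hl.mono.map_min]
    exact hl.mono (hu _ _ _)

theorem mem_shapeClass {n : ℕ} {u : Shape r n} (hu : IsUltra u) {q : ℕ} {l l' : Fin n} :
    l' ∈ shapeClass u q l ↔ l' = l ∨ q ≤ (u l l').val := by
  unfold shapeClass
  split_ifs with hq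
  · simp only [Finset.mem_filter, Finset.mem_univ, true_and]
    exact ⟨Or.inr, fun h => h.elim (fun e => by rw [e, hu.1 l, Fin.val_last]; exact hq) id⟩
  · simp only [Finset.mem_singleton]
    refine ⟨Or.inl, fun h => h.elim id fun h => ?_⟩
    have := (u l l').isLt
    omega

theorem self_mem_shapeClass {n : ℕ} {u : Shape r n} (hu : IsUltra u) (q : ℕ) (l : Fin n) :
    l ∈ shapeClass u q l := (mem_shapeClass hu).2 (Or.inl rfl)

theorem val_min (a b : Fin (r + 1)) : (min a b).val = min a.val b.val := by
  rcases le_total a b with h | h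
  · rw [min_eq_left h, min_eq_left (Fin.le_def.1 h)]
  · rw [min_eq_right h, min_eq_right (Fin.le_def.1 h)]

theorem ultra_val {n : ℕ} {u : Shape r n} (hu : IsUltra u) {q : ℕ} {a b c : Fin n}
    (h1 : q ≤ (u a b).val) (h2 : q ≤ (u b c).val) : q ≤ (u a c).val := by
  have := Fin.le_def.1 (hu.2.2 a b c)
  rw [val_min] at this
  omega

theorem shapeClass_eq {n : ℕ} {u : Shape r n} (hu : IsUltra u) {q : ℕ} {l l' : Fin n}
    (h : l' ∈ shapeClass u q l) : shapeClass u q l' = shapeClass u q l := by
  rcases (mem_shapeClass hu).1 h with rfl | h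
  · rfl
  ext x
  have h' : q ≤ (u l' l).val := hu.2.1 l l' ▸ h
  rw [mem_shapeClass hu, mem_shapeClass hu]
  constructor
  · rintro (rfl | hx)
    · exact Or.inr h
    · exact Or.inr (ultra_val hu h hx)
  · rintro (rfl | hx)
    · exact Or.inr h'
    · exact Or.inr (ultra_val hu h' hx)

/-- The candidates for the closest replica of the last one. -/
def Closest {n : ℕ} (v : Shape r (n + 1)) (ls : Fin n) : Prop :=
  ∀ l : Fin n, v (Fin.last n) l.castSucc = min (v (Fin.last n) ls.castSucc) (shapeInit v ls l) ∧
    v l.castSucc (Fin.last n) = v (Fin.last n) l.castSucc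

theorem exists_closest {n : ℕ} {v : Shape r (n + 1)} (hv : IsUltra v) (hn : n ≠ 0) :
    ∃ ls, Closest v ls := by
  have : Nonempty (Fin n) := ⟨⟨0, Nat.pos_of_ne_zero hn⟩⟩
  obtain ⟨ls, -, hmax⟩ := Finset.exists_max_image (Finset.univ : Finset (Fin n))
    (fun l => v (Fin.last n) l.castSucc) Finset.univ_nonempty
  refine ⟨ls, fun l => ⟨le_antisymm (le_min (hmax l (Finset.mem_univ _)) ?_) ?_, hv.2.1 _ _⟩⟩
  · refine le_trans ?_ (hv.2.2 ls.castSucc (Fin.last n) l.castSucc)
    exact le_min (hv.2.1 ls.castSucc _ ▸ hmax l (Finset.mem_univ _)) le_rfl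
  · exact hv.2.2 _ _ _

theorem shapeInit_ultra {n : ℕ} {v : Shape r (n + 1)} (hv : IsUltra v) : IsUltra (shapeInit v) :=
  ⟨fun a => hv.1 _, fun a b => hv.2.1 _ _, fun a b c => hv.2.2 _ _ _⟩

theorem shapeInit_shp (lev : ℝ → Fin (r + 1)) (n : ℕ) (ω : Arr) :
    shapeInit (shp lev (n + 1) ω) = shp lev n ω := by
  funext a b
  simp [shapeInit, shp, shapeOf, tmat, idRep]

theorem extProb_of_ne {n : ℕ} (m : Fin r → ℝ) {v : Shape r (n + 1)}
    (h : v (Fin.last n) (Fin.last n) ≠ Fin.last r) : extProb m v = 0 := by
  rw [extProb, if_neg h]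

theorem extProb_zero (m : Fin r → ℝ) {v : Shape r (0 + 1)}
    (h : v (Fin.last 0) (Fin.last 0) = Fin.last r) : extProb m v = 1 := by
  rw [extProb, if_pos h, if_pos rfl]

theorem extProb_none {n : ℕ} (m : Fin r → ℝ) {v : Shape r (n + 1)} (hn : n ≠ 0)
    (h : ¬ ∃ ls, Closest v ls) : extProb m v = 0 := by
  unfold extProb
  split_ifs with h1 h2
  · exact absurd h2 h
  · rfl
  · rfl

theorem extProb_closest {n : ℕ} (m : Fin r → ℝ) {v : Shape r (n + 1)} (hn : n ≠ 0)
    (h1 : v (Fin.last n) (Fin.last n) = Fin.last r) (h : ∃ ls, Closest v ls) :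
    ∃ ls, Closest v ls ∧ extProb m v =
      ((((shapeClass (shapeInit v) (v (Fin.last n) ls.castSucc).val ls).image
        (shapeClass (shapeInit v) ((v (Fin.last n) ls.castSucc).val + 1))).card : ℝ) *
          padded m ((v (Fin.last n) ls.castSucc).val + 1) -
        padded m (v (Fin.last n) ls.castSucc).val) / n := by
  refine ⟨h.choose, h.choose_spec, ?_⟩
  unfold extProb
  rw [if_pos h1, if_neg hn]
  split_ifs with h2
  · rfl
  · exact absurd h h2

/-- Indicator of `q ≤` the level of replicas `l` and `n`. -/
def lvlInd (lev : ℝ → Fin (r + 1)) (q l n : ℕ) (ω : Arr) : ℝ :=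
  if q ≤ (lev (rbar l n ω)).val then 1 else 0

/-- Indicator of a shape. -/
def shpInd (lev : ℝ → Fin (r + 1)) {n : ℕ} (u : Shape r n) (ω : Arr) : ℝ :=
  if shp lev n ω = u then 1 else 0

theorem measurable_lvlInd (hl : IsLevel ν lev) (q l n : ℕ) : Measurable (lvlInd lev q l n) :=
  (measurable_from_top (f := fun x : Fin (r + 1) => if q ≤ x.val then (1 : ℝ) else 0)).comp
    (hl.meas.comp (measurable_rbar l n))

theorem measurable_shpInd (hl : IsLevel ν lev) {n : ℕ} (u : Shape r n) :
    Measurable (shpInd lev u) :=
  Measurable.ite (measurableSet_shp hl n u) measurable_const measurable_const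

theorem integral_shpInd (hl : IsLevel ν lev) {n : ℕ} (u : Shape r n) :
    ∫ ω, shpInd lev u ω ∂ν = ν.real {ω | shp lev n ω = u} := by
  have : shpInd lev u = ({ω | shp lev n ω = u} : Set Arr).indicator 1 := by
    funext ω
    by_cases h : shp lev n ω = u <;> simp [shpInd, h]
  rw [this, integral_indicator_one (measurableSet_shp hl n u)]

/-- The level indicators in the scalar identities. -/
theorem gg_level (hT : IsTreeArray ν ρ) (hl : IsLevel ν lev) {n : ℕ} {u : Shape r n}
    (hu : IsUltra u) (q : ℕ) (l : Fin n) :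
    (n : ℝ) * ∫ ω, shpInd lev u ω * lvlInd lev q l n ω ∂ν =
      ν.real {ω | shp lev n ω = u} *
        (((shapeClass u q l).card : ℝ) - padded (expo ν lev) q) := by
  classical
  have := hT.prob
  have : IsProbabilityMeasure (overlapLaw ν) :=
    Measure.isProbabilityMeasure_map (measurable_rbar 0 1).aemeasurable
  set F : RepData n → ℝ := fun z => if shapeOf lev (tmatData z) = u then 1 else 0 with hF
  set h : ℝ → ℝ := fun x => if q ≤ (lev x).val then 1 else 0 with hh
  have hFm : Measurable F := Measurable.ite
    (((measurable_shapeOf hl n).comp (measurable_tmatData n)) (measurableSet_singleton u))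
    measurable_const measurable_const
  have hhm : Measurable h := (measurable_from_top
    (f := fun x : Fin (r + 1) => if q ≤ x.val then (1 : ℝ) else 0)).comp hl.meas
  have e := hT.gg_scalar n l l.isLt F h hFm hhm
    (fun z => by simp only [hF]; split_ifs <;> simp)
    (fun z => by simp only [hh]; split_ifs <;> simp)
  have eF : ∀ ω, F (repData n ω) = shpInd lev u ω := fun ω => rfl
  simp only [eF] at e
  rw [integral_shpInd hl] at e
  refine e.trans ?_
  have eh : ∫ ω, h (rbar 0 1 ω) ∂ν = 1 - padded (expo ν lev) q := by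
    rw [← integral_map (measurable_rbar 0 1).aemeasurable hhm.aestronglyMeasurable,
      padded_expo hT]
    change ∫ x, h x ∂overlapLaw ν = _
    have hc : {x | (lev x).val < q} = (lev ⁻¹' {p | q ≤ p.val})ᶜ := by
      ext x; simp
    rw [hc, probReal_compl_eq_one_sub (lev_preimage hl _)]
    have : h = (lev ⁻¹' {p | q ≤ p.val}).indicator 1 := by
      funext x
      by_cases hx : q ≤ (lev x).val <;> simp [hh, hx]
    rw [this, integral_indicator_one (lev_preimage hl _)]
    ring
  have es : ∀ l' ∈ (Finset.range n).erase (l : ℕ),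
      ∫ ω, shpInd lev u ω * h (rbar l l' ω) ∂ν =
        ν.real {ω | shp lev n ω = u} *
          if ∃ x : Fin n, x.val = l' ∧ q ≤ (u l x).val then 1 else 0 := by
    intro l' hl'
    simp only [Finset.mem_erase, Finset.mem_range] at hl'
    have : ∀ ω, shpInd lev u ω * h (rbar l l' ω) =
        shpInd lev u ω * (if ∃ x : Fin n, x.val = l' ∧ q ≤ (u l x).val then 1 else 0) := by
      intro ω
      by_cases hω : shp lev n ω = u
      · have hne : l ≠ (⟨l', hl'.2⟩ : Fin n) := fun e => hl'.1 (by rw [e])
        have hval : u l ⟨l', hl'.2⟩ = lev (rbar l l' ω) := by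
          rw [← hω]
          simp only [shp, shapeOf, if_neg hne, tmat, idRep]
        congr 1
        simp only [hh]
        refine if_congr ⟨fun hq => ⟨⟨l', hl'.2⟩, rfl, by rw [hval]; exact hq⟩, ?_⟩ rfl rfl
        rintro ⟨x, hx, hq⟩
        obtain rfl : x = ⟨l', hl'.2⟩ := Fin.ext hx
        rwa [hval] at hq
      · simp [shpInd, hω]
    simp only [this]
    rw [integral_mul_const, integral_shpInd hl]
  rw [eh, Finset.sum_congr rfl es, ← Finset.mul_sum, Finset.sum_boole, ← mul_add]
  congr 1
  have hcard : (shapeClass u q l).card =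
      (((Finset.range n).erase (l : ℕ)).filter
        fun l' => ∃ x : Fin n, x.val = l' ∧ q ≤ (u l x).val).card + 1 := by
    rw [← Finset.card_erase_add_one (self_mem_shapeClass hu q l)]
    congr 1
    refine Finset.card_bij (fun x _ => x.val) ?_ (fun a _ b _ e => Fin.ext e) ?_
    · intro x hx
      rw [Finset.mem_erase, mem_shapeClass hu] at hx
      simp only [Finset.mem_filter, Finset.mem_erase, Finset.mem_range]
      exact ⟨⟨fun e => hx.1 (Fin.ext e), x.isLt⟩, x, rfl, hx.2.resolve_left hx.1⟩
    · intro y hy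
      simp only [Finset.mem_filter, Finset.mem_erase, Finset.mem_range] at hy
      obtain ⟨⟨hy1, -⟩, x, hx, hq⟩ := hy
      refine ⟨x, ?_, hx⟩
      rw [Finset.mem_erase, mem_shapeClass hu]
      exact ⟨fun e => hy1 (by rw [← hx, e]), Or.inr hq⟩
  rw [hcard]
  push_cast
  ring

/-- The extension event through level indicators. -/
theorem shp_succ_iff {n : ℕ} {v : Shape r (n + 1)} {ls : Fin n}
    (h1 : v (Fin.last n) (Fin.last n) = Fin.last r) (hls : Closest v ls) {ω : Arr}
    (hω : IsUltra (shp lev (n + 1) ω)) :
    shp lev (n + 1) ω = v ↔ shp lev n ω = shapeInit v ∧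
      (v (Fin.last n) ls.castSucc).val ≤ (lev (rbar ls n ω)).val ∧
      ∀ l : Fin n, (v (Fin.last n) ls.castSucc).val ≤ (shapeInit v ls l).val →
        (lev (rbar l n ω)).val < (v (Fin.last n) ls.castSucc).val + 1 := by
  set p := v (Fin.last n) ls.castSucc with hp
  have key : ∀ l : Fin n, shp lev (n + 1) ω l.castSucc (Fin.last n) = lev (rbar l n ω) := by
    intro l
    simp [shp, shapeOf, tmat, idRep, (Fin.castSucc_lt_last l).ne]
  constructor
  · intro e
    have hls' : v ls.castSucc (Fin.last n) = p := (hls ls).2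
    refine ⟨by rw [← shapeInit_shp, e], ?_, fun l _ => ?_⟩
    · rw [← key, e, hls']
    · rw [← key, e, (hls l).2, (hls l).1, val_min]
      omega
  · rintro ⟨hu, hge, hle⟩
    set s := shp lev (n + 1) ω with hs
    have hinit : ∀ a b : Fin n, s a.castSucc b.castSucc = shapeInit v a b := by
      intro a b
      rw [← hu, ← shapeInit_shp]
      rfl
    have hval : ∀ l : Fin n, s l.castSucc (Fin.last n) = min p (shapeInit v ls l) := by
      intro l
      have t1 := Fin.le_def.1 (hω.2.2 l.castSucc ls.castSucc (Fin.last n))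
      have t2 := Fin.le_def.1 (hω.2.2 ls.castSucc (Fin.last n) l.castSucc)
      rw [val_min, hω.2.1 l.castSucc ls.castSucc, hinit, key, key] at t1
      rw [val_min, hω.2.1 (Fin.last n) l.castSucc, hinit, key, key] at t2
      refine Fin.ext ?_
      rw [key, val_min]
      by_cases hq : p.val ≤ (shapeInit v ls l).val
      · have := hle l hq
        omega
      · omega
    funext a b
    induction a using Fin.lastCases with
    | last =>
      induction b using Fin.lastCases with
      | last => rw [hω.1, h1]
      | cast b => rw [hω.2.1, hval, (hls b).1]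
    | cast a =>
      induction b using Fin.lastCases with
      | last => rw [hval, (hls a).2, (hls a).1]
      | cast b => exact hinit a b

theorem extend_prob (hT : IsTreeArray ν ρ) (hl : IsLevel ν lev) {n : ℕ} {v : Shape r (n + 1)}
    {ls : Fin n} (h1 : v (Fin.last n) (Fin.last n) = Fin.last r) (hls : Closest v ls)
    (hu : IsUltra (shapeInit v)) :
    (n : ℝ) * ν.real {ω | shp lev (n + 1) ω = v} =
      ν.real {ω | shp lev n ω = shapeInit v} *
        ((((shapeClass (shapeInit v) (v (Fin.last n) ls.castSucc).val ls).image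
          (shapeClass (shapeInit v) ((v (Fin.last n) ls.castSucc).val + 1))).card : ℝ) *
            padded (expo ν lev) ((v (Fin.last n) ls.castSucc).val + 1) -
          padded (expo ν lev) (v (Fin.last n) ls.castSucc).val) := by
  classical
  have := hT.prob
  set p := (v (Fin.last n) ls.castSucc).val with hp
  set u := shapeInit v with hudef
  set Kc := shapeClass u p ls with hK
  set C := Kc.image (shapeClass u (p + 1)) with hC
  let rp : Finset (Fin n) → Fin n := fun c => if h : c.Nonempty then c.min' h else ls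
  have hrp : ∀ c ∈ C, rp c ∈ Kc ∧ shapeClass u (p + 1) (rp c) = c := by
    intro c hc
    obtain ⟨l, hlK, rfl⟩ := Finset.mem_image.1 hc
    have hne : (shapeClass u (p + 1) l).Nonempty := ⟨l, self_mem_shapeClass hu _ _⟩
    have hmem : rp (shapeClass u (p + 1) l) ∈ shapeClass u (p + 1) l := by
      simp only [rp, dif_pos hne]
      exact Finset.min'_mem _ _
    refine ⟨?_, shapeClass_eq hu hmem⟩
    rcases (mem_shapeClass hu).1 hmem with e | e
    · rw [e]; exact hlK
    · rw [hK, mem_shapeClass hu]
      rcases (mem_shapeClass hu).1 hlK with e' | e'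
      · right; rw [← e']; omega
      · right; exact ultra_val hu e' (by omega)
  have hid : ∀ᵐ ω ∂ν, shpInd lev v ω +
      ∑ c ∈ C, shpInd lev u ω * lvlInd lev (p + 1) (rp c) n ω =
        shpInd lev u ω * lvlInd lev p ls n ω := by
    filter_upwards [shp_ultra hT hl (n + 1)] with ω hω
    by_cases hU : shp lev n ω = u
    swap
    · have : shp lev (n + 1) ω ≠ v := fun e => hU (by rw [hudef, ← e, shapeInit_shp])
      simp [shpInd, hU, this]
    have e1 : shpInd lev u ω = 1 := by simp [shpInd, hU]
    simp only [e1, one_mul]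
    have key : ∀ l : Fin n, shp lev (n + 1) ω l.castSucc (Fin.last n) = lev (rbar l n ω) := by
      intro l
      simp [shp, shapeOf, tmat, idRep, (Fin.castSucc_lt_last l).ne]
    have hpair : ∀ a b : Fin n, shp lev (n + 1) ω a.castSucc b.castSucc = u a b := by
      intro a b
      rw [← hU, ← shapeInit_shp lev n ω]
      rfl
    have tri : ∀ (a b : Fin n) (q : ℕ), q ≤ (u a b).val → q ≤ (lev (rbar b n ω)).val →
        q ≤ (lev (rbar a n ω)).val := by
      intro a b q h2 h3
      have t := Fin.le_def.1 (hω.2.2 a.castSucc b.castSucc (Fin.last n))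
      rw [val_min, hpair, key, key] at t
      omega
    have join : ∀ (a b : Fin n) (q : ℕ), q ≤ (lev (rbar a n ω)).val →
        q ≤ (lev (rbar b n ω)).val → q ≤ (u a b).val := by
      intro a b q h2 h3
      have t := Fin.le_def.1 (hω.2.2 a.castSucc (Fin.last n) b.castSucc)
      rw [val_min, hω.2.1 (Fin.last n) b.castSucc, hpair, key, key] at t
      omega
    by_cases hA : p ≤ (lev (rbar ls n ω)).val
    swap
    · have hv : shp lev (n + 1) ω ≠ v := fun e => hA ((shp_succ_iff h1 hls hω).1 e).2.1
      have hz : ∀ c ∈ C, lvlInd lev (p + 1) (rp c) n ω = 0 := by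
        intro c hc
        refine if_neg fun h => hA ?_
        rcases (mem_shapeClass hu).1 (hrp c hc).1 with e | e
        · rw [← e]; omega
        · exact tri ls (rp c) p e (by omega)
      rw [Finset.sum_eq_zero hz]
      simp [shpInd, lvlInd, hv, hA]
    rw [show lvlInd lev p ls n ω = 1 by simp [lvlInd, hA]]
    by_cases hB : ∀ l : Fin n, p ≤ (u ls l).val → (lev (rbar l n ω)).val < p + 1
    · have hv : shp lev (n + 1) ω = v := (shp_succ_iff h1 hls hω).2 ⟨hU, hA, hB⟩
      have hz : ∀ c ∈ C, lvlInd lev (p + 1) (rp c) n ω = 0 := by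
        intro c hc
        refine if_neg fun h => ?_
        rcases (mem_shapeClass hu).1 (hrp c hc).1 with e | e
        · have := hB ls (by rw [hu.1, Fin.val_last]; have := (v (Fin.last n) ls.castSucc).isLt
                            omega)
          rw [e] at h
          omega
        · have := hB _ e
          omega
      rw [Finset.sum_eq_zero hz]
      simp [shpInd, hv]
    · have hv : shp lev (n + 1) ω ≠ v := fun e => hB ((shp_succ_iff h1 hls hω).1 e).2.2
      push Not at hB
      obtain ⟨l, hlp, hlq⟩ := hB
      have hlK : l ∈ Kc := by rw [hK, mem_shapeClass hu]; exact Or.inr hlp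
      have hcl : shapeClass u (p + 1) l ∈ C := Finset.mem_image_of_mem _ hlK
      rw [Finset.sum_eq_single (shapeClass u (p + 1) l)]
      · have hin : rp (shapeClass u (p + 1) l) ∈ shapeClass u (p + 1) l := by
          have := self_mem_shapeClass hu (p + 1) (rp (shapeClass u (p + 1) l))
          rwa [(hrp _ hcl).2] at this
        have hq : p + 1 ≤ (lev (rbar (rp (shapeClass u (p + 1) l)) n ω)).val := by
          rcases (mem_shapeClass hu).1 hin with e | e
          · rw [e]; omega
          · exact tri _ l (p + 1) (hu.2.1 l _ ▸ e) (by omega)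
        simp [shpInd, lvlInd, hv, hq]
      · intro c hc hne
        refine if_neg fun h => hne ?_
        rw [← (hrp c hc).2]
        exact shapeClass_eq hu ((mem_shapeClass hu).2 (Or.inr (join l (rp c) _ (by omega) h)))
      · exact fun h => absurd hcl h
  have hb : ∀ (w : Shape r n) (q l : ℕ),
      Integrable (fun ω => shpInd lev w ω * lvlInd lev q l n ω) ν := fun w q l =>
    integrable_bdd ((measurable_shpInd hl w).mul (measurable_lvlInd hl q l n)) 1 fun ω => by
      unfold shpInd lvlInd
      split_ifs <;> simp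
  have hv' : Integrable (shpInd lev v) ν :=
    integrable_bdd (measurable_shpInd hl v) 1 fun ω => by
      unfold shpInd
      split_ifs <;> simp
  have hI := integral_congr_ae hid
  rw [integral_add hv' (integrable_finsetSum _ fun c _ => hb u _ _),
    integral_finsetSum _ fun c _ => hb u _ _, integral_shpInd hl] at hI
  have hI' := congrArg (fun x => (n : ℝ) * x) hI
  simp only [mul_add, Finset.mul_sum] at hI'
  rw [gg_level hT hl hu p ls, Finset.sum_congr rfl fun c hc => by
    rw [gg_level hT hl hu (p + 1) (rp c), (hrp c hc).2]] at hI'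
  have hsum : ∑ c ∈ C, ((c.card : ℕ) : ℝ) = Kc.card := by
    rw [hC, ← Nat.cast_sum]
    congr 1
    rw [Finset.card_eq_sum_card_image (shapeClass u (p + 1)) Kc]
    refine Finset.sum_congr rfl fun c hc => ?_
    obtain ⟨l, hlK, rfl⟩ := Finset.mem_image.1 hc
    congr 1
    ext x
    simp only [Finset.mem_filter]
    refine ⟨fun hx => ⟨?_, shapeClass_eq hu hx⟩, fun hx => ?_⟩
    · rcases (mem_shapeClass hu).1 hx with e | e
      · rw [e]; exact hlK
      · rw [hK, mem_shapeClass hu]
        rcases (mem_shapeClass hu).1 hlK with e' | e'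
        · right; rw [← e']; omega
        · right; exact ultra_val hu e' (by omega)
    · rw [← hx.2]; exact self_mem_shapeClass hu _ _
  rw [← Finset.mul_sum, Finset.sum_sub_distrib, hsum, Finset.sum_const, nsmul_eq_mul] at hI'
  linear_combination hI'

theorem shp_zero (v : Shape r 0) (ω : Arr) : shp lev 0 ω = v := Subsingleton.elim _ _

/-- The coarse tree has the law of the cascade. -/
theorem shp_law (hT : IsTreeArray ν ρ) (hl : IsLevel ν lev) :
    ∀ (n : ℕ) (v : Shape r n),
      ν.real {ω | shp lev n ω = v} = shapeProb (expo ν lev) n v := by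
  intro n
  have := hT.prob
  induction n with
  | zero =>
    intro v
    rw [Set.eq_univ_of_forall (s := {ω : Arr | shp lev 0 ω = v}) fun ω => shp_zero v ω]
    simp [shapeProb]
  | succ n ih =>
    intro v
    simp only [shapeProb, ← ih]
    by_cases h1 : v (Fin.last n) (Fin.last n) = Fin.last r
    swap
    · have : {ω : Arr | shp lev (n + 1) ω = v} = ∅ := by
        ext ω
        simp only [Set.mem_ofPred_eq, Set.mem_empty_iff_false, iff_false]
        intro e
        exact h1 (by rw [← e]; simp [shp, shapeOf])
      rw [this, extProb_of_ne _ h1]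
      simp
    by_cases hn : n = 0
    · subst hn
      have e1 : {ω : Arr | shp lev 1 ω = v} = Set.univ := by
        ext ω
        simp only [Set.mem_ofPred_eq, Set.mem_univ, iff_true]
        funext a b
        obtain rfl : a = Fin.last 0 := Subsingleton.elim _ _
        obtain rfl : b = Fin.last 0 := Subsingleton.elim _ _
        rw [h1]
        simp [shp, shapeOf]
      have e2 : {ω : Arr | shp lev 0 ω = shapeInit v} = Set.univ :=
        Set.eq_univ_of_forall fun ω => shp_zero _ ω
      rw [e1, e2, extProb_zero _ h1, mul_one]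
    by_cases hP : ν.real {ω | shp lev n ω = shapeInit v} = 0
    · rw [hP, zero_mul]
      refine le_antisymm ?_ measureReal_nonneg
      rw [← hP]
      refine measureReal_mono fun ω (hω : shp lev (n + 1) ω = v) => ?_
      simp only [Set.mem_ofPred_eq, ← hω, shapeInit_shp]
    have hu : IsUltra (shapeInit v) := by
      by_contra hu
      apply hP
      have h0 : ν {ω | shp lev n ω = shapeInit v} = 0 :=
        measure_mono_null (fun ω (hω : shp lev n ω = shapeInit v) =>
          show ¬ IsUltra (shp lev n ω) by rw [hω]; exact hu) (shp_ultra hT hl n)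
      simp [measureReal_def, h0]
    by_cases hc : ∃ ls, Closest v ls
    swap
    · have h0 : ν {ω | shp lev (n + 1) ω = v} = 0 :=
        measure_mono_null (fun ω (hω : shp lev (n + 1) ω = v) =>
          show ¬ IsUltra (shp lev (n + 1) ω) from fun h =>
            hc (exists_closest (by rwa [hω] at h) hn)) (shp_ultra hT hl (n + 1))
      simp [extProb_none _ hn hc, measureReal_def, h0]
    obtain ⟨ls, hls, e⟩ := extProb_closest (expo ν lev) hn h1 hc
    rw [e, mul_div_assoc', eq_div_iff (Nat.cast_ne_zero.2 hn), mul_comm]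
    exact extend_prob hT hl h1 hls hu

/-- Every ultrametric shape has positive probability. -/
theorem shp_pos (hT : IsTreeArray ν ρ) (hl : IsLevel ν lev) :
    ∀ (n : ℕ) (v : Shape r n), IsUltra v → 0 < ν.real {ω | shp lev n ω = v} := by
  intro n
  induction n with
  | zero => intro v _; rw [shp_law hT hl]; simp [shapeProb]
  | succ n ih =>
    intro v hv
    rw [shp_law hT hl]
    simp only [shapeProb, ← shp_law hT hl n]
    refine mul_pos (ih _ (shapeInit_ultra hv)) ?_
    by_cases hn : n = 0
    · subst hn
      rw [extProb_zero _ (hv.1 _)]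
      exact one_pos
    obtain ⟨ls, -, e⟩ := extProb_closest (expo ν lev) hn (hv.1 _) (exists_closest hv hn)
    rw [e]
    refine div_pos ?_ (by exact_mod_cast Nat.pos_of_ne_zero hn)
    set p := (v (Fin.last n) ls.castSucc).val with hp
    have hj : (1 : ℝ) ≤ ((shapeClass (shapeInit v) p ls).image
        (shapeClass (shapeInit v) (p + 1))).card := by
      have : 1 ≤ ((shapeClass (shapeInit v) p ls).image
          (shapeClass (shapeInit v) (p + 1))).card :=
        Finset.card_pos.2 (Finset.Nonempty.image
          ⟨ls, self_mem_shapeClass (shapeInit_ultra hv) _ _⟩ _)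
      exact_mod_cast this
    have h2 := padded_lt_succ hT hl (p := p) (Nat.lt_succ_iff.1 (Fin.isLt _))
    have h3 := padded_nonneg hT lev (p + 1)
    nlinarith

end Vale.Agent.P168.AssemblyMP
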