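import Vale.Agent.P168.AssemblyMP.Key

/-! The trial order parameter read from one positive configuration of a full tree. -/

open MeasureTheory ProbabilityTheory Filter
open scoped BigOperators NNReal ENNReal

noncomputable section

namespace Vale.Agent.P168.AssemblyMP

instance : IsProbabilityMeasure unif :=
  ⟨by simp [unif, Real.volume_Icc]⟩

/-- A variable of a prescribed law from a uniform variable. -/
theorem exists_sampler {Y : Type} [MeasurableSpace Y] [StandardBorelSpace Y] [Nonempty Y]
    (μ : Measure Y) [IsProbabilityMeasure μ] :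
    ∃ g : ℝ → Y, Measurable g ∧ unif.map g = μ := by
  obtain ⟨f, hf, hmap⟩ := Measure.exists_measurable_map_eq μ
  have hg : Measurable fun u : ℝ => f (Set.projIcc (0 : ℝ) 1 zero_le_one u) :=
    hf.comp continuous_projIcc.measurable
  refine ⟨_, hg, ?_⟩
  have hu : unif = (volume : Measure unitInterval).map Subtype.val :=
    unitInterval.measurePreserving_coe.map_eq.symm
  rw [hu, Measure.map_map hg measurable_subtype_coe, ← hmap]
  congr 1
  funext x
  simp [Set.projIcc_val]

/-- A uniform label. -/
theorem exists_label (B : ℕ) (hB : 0 < B) :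
    ∃ g : ℝ → Fin B, Measurable g ∧ ∀ k, unif.real (g ⁻¹' {k}) = (B : ℝ)⁻¹ := by
  have : Nonempty (Fin B) := ⟨⟨0, hB⟩⟩
  have : IsProbabilityMeasure (unifFin (Fin B)) := ⟨by
    simp [unifFin, Measure.smul_apply, Measure.count_univ, ENat.card_eq_coe_fintype_card,
      ENNReal.inv_mul_cancel, hB.ne']⟩
  obtain ⟨g, hg, hmap⟩ := exists_sampler (unifFin (Fin B))
  refine ⟨g, hg, fun k => ?_⟩
  rw [measureReal_def, ← Measure.map_apply hg (measurableSet_singleton k), hmap]
  simp [unifFin, Measure.smul_apply]

theorem abs_prod_sub_prod {ι : Type} (s : Finset ι) (a b : ι → ℝ) (ha : ∀ i ∈ s, |a i| ≤ 1)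
    (hb : ∀ i ∈ s, |b i| ≤ 1) :
    |∏ i ∈ s, a i - ∏ i ∈ s, b i| ≤ ∑ i ∈ s, |a i - b i| := by
  classical
  induction s using Finset.induction with
  | empty => simp
  | insert j t hj ih =>
    rw [Finset.prod_insert hj, Finset.prod_insert hj, Finset.sum_insert hj]
    have ih' := ih (fun i hi => ha i (Finset.mem_insert_of_mem hi))
      fun i hi => hb i (Finset.mem_insert_of_mem hi)
    have h1 : |∏ i ∈ t, a i| ≤ 1 := by
      rw [Finset.abs_prod]
      exact Finset.prod_le_one (fun i _ => abs_nonneg _)
        fun i hi => ha i (Finset.mem_insert_of_mem hi)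
    have h2 : a j * ∏ i ∈ t, a i - b j * ∏ i ∈ t, b i =
        (a j - b j) * ∏ i ∈ t, a i + b j * (∏ i ∈ t, a i - ∏ i ∈ t, b i) := by ring
    rw [h2]
    refine (abs_add_le _ _).trans (add_le_add ?_ ?_)
    · rw [abs_mul]
      exact mul_le_of_le_one_right (abs_nonneg _) h1
    · rw [abs_mul]
      exact le_trans (mul_le_of_le_one_left (abs_nonneg _) (hb j (Finset.mem_insert_self _ _))) ih'

/-- Two given arguments collide with probability `1 / B`. -/
theorem card_collide {ι : Type} [Fintype ι] [DecidableEq ι] (B : ℕ) {a b : ι} (hab : a ≠ b) :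
    (Finset.univ.filter fun f : ι → Fin B => f a = f b).card * B =
      Fintype.card (ι → Fin B) := by
  have e : {f : ι → Fin B // f a = f b} × Fin B ≃ (ι → Fin B) :=
    { toFun := fun p => Function.update p.1.1 a p.2
      invFun := fun f => (⟨Function.update f a (f b), by simp [hab.symm]⟩, f a)
      left_inv := by
        rintro ⟨⟨f, hf⟩, c⟩
        refine Prod.ext (Subtype.ext ?_) (by simp)
        simp only [Function.update_idem, Function.update_of_ne hab.symm, ← hf,
          Function.update_eq_self]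
      right_inv := fun f => by simp }
  rw [← Fintype.card_congr e, Fintype.card_prod, Fintype.card_fin, Fintype.card_subtype]

/-- Labels of all levels: an edge label at every level and a leaf copy. -/
abbrev Labels (r n B : ℕ) := (Fin r × Fin n) ⊕ Fin n → Fin B

/-- Paths in the full tree. -/
abbrev Path (r B : ℕ) := Fin (r + 1) → Fin B

/-- The shape of the full tree. -/
def treeShape {r B : ℕ} (a b : Path r B) : Fin (r + 1) :=
  ⟨(Finset.univ.filter fun p : Fin r => ∀ q : Fin r, q ≤ p → a q.castSucc = b q.castSucc).card,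
    Nat.lt_succ_of_le ((Finset.card_filter_le _ _).trans (by simp))⟩

theorem treeShape_self {r B : ℕ} (a : Path r B) : treeShape a a = Fin.last r :=
  Fin.ext (by simp [treeShape])

theorem treeShape_comm {r B : ℕ} (a b : Path r B) : treeShape a b = treeShape b a :=
  Fin.ext (by simp [treeShape, eq_comm])

theorem treeShape_tri {r B : ℕ} (a b c : Path r B) :
    min (treeShape a b) (treeShape b c) ≤ treeShape a c := by
  rw [Fin.le_def, val_min]
  set S : Path r B → Path r B → Finset (Fin r) := fun a b =>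
    Finset.univ.filter fun p : Fin r => ∀ q : Fin r, q ≤ p → a q.castSucc = b q.castSucc with hS
  change min (S a b).card (S b c).card ≤ (S a c).card
  have hd : ∀ x y : Path r B, ∀ p ∈ S x y, ∀ q ≤ p, q ∈ S x y := by
    intro x y p hp q hq
    simp only [hS, Finset.mem_filter, Finset.mem_univ, true_and] at hp ⊢
    exact fun q' hq' => hp q' (hq'.trans hq)
  have hsub : ∀ p, p ∈ S a b → p ∈ S b c → p ∈ S a c := by
    intro p h1 h2
    simp only [hS, Finset.mem_filter, Finset.mem_univ, true_and] at h1 h2 ⊢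
    exact fun q hq => (h1 q hq).trans (h2 q hq)
  by_cases h : S a b ⊆ S b c
  · exact le_trans (min_le_left _ _) (Finset.card_le_card fun p hp => hsub p hp (h hp))
  · obtain ⟨p₀, hp₀, hp₀'⟩ := Finset.not_subset.1 h
    have h' : S b c ⊆ S a b := by
      intro p hp
      rcases le_total p p₀ with hle | hle
      · exact hd a b p₀ hp₀ p hle
      · exact absurd (hd b c p hp p₀ hle) hp₀'
    exact le_trans (min_le_right _ _) (Finset.card_le_card fun p hp => hsub p (h' hp) hp)

/-- The path of replica `l` in a shape, given labels. -/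
def pathOf {r n B : ℕ} (v : Shape r n) (H : Labels r n B) (l : Fin n) : Path r B :=
  Fin.snoc (fun p : Fin r => H (Sum.inl (p, shapeRep v (p.val + 1) l))) (H (Sum.inr l))

theorem shapeRep_eq_iff {r n : ℕ} {v : Shape r n} (hv : IsUltra v) {p : ℕ} (hp : p ≤ r)
    {a b : Fin n} : shapeRep v p a = shapeRep v p b ↔ p ≤ (v a b).val := by
  have hm : ∀ l, (shapeClass v p l).Nonempty := fun l => ⟨l, self_mem_shapeClass hv p l⟩
  simp only [shapeRep, dif_pos (hm _)]
  constructor
  · intro e
    have ha := Finset.min'_mem _ (hm a)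
    have hb := Finset.min'_mem _ (hm b)
    rw [e] at ha
    have key : ∀ l x, x ∈ shapeClass v p l → p ≤ (v l x).val := fun l x hx =>
      ((mem_shapeClass hv).1 hx).elim (fun e => by rw [e, hv.1, Fin.val_last]; exact hp) id
    exact ultra_val hv (key a _ ha) (hv.2.1 b _ ▸ key b _ hb)
  · intro h
    congr 1
    exact (shapeClass_eq hv ((mem_shapeClass hv).2 (Or.inr h))).symm

theorem treeShape_pathOf {r n B : ℕ} {v : Shape r n} (hv : IsUltra v) {H : Labels r n B}
    (hH : ∀ p a b, a ≠ b → H (Sum.inl (p, a)) ≠ H (Sum.inl (p, b))) (a b : Fin n) :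
    treeShape (pathOf v H a) (pathOf v H b) = v a b := by
  have key : ∀ p : Fin r, (∀ q : Fin r, q ≤ p → pathOf v H a q.castSucc = pathOf v H b q.castSucc) ↔
      p.val + 1 ≤ (v a b).val := by
    intro p
    simp only [pathOf, Fin.snoc_castSucc]
    constructor
    · intro h
      refine (shapeRep_eq_iff hv (by omega)).1 ?_
      by_contra hne
      exact hH p _ _ hne (h p le_rfl)
    · intro h q hq
      rw [(shapeRep_eq_iff hv (by omega)).2 (le_trans (Nat.add_le_add_right hq 1) h)]
  refine Fin.ext ?_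
  simp only [treeShape, key]
  have : (Finset.univ.filter fun p : Fin r => p.val + 1 ≤ (v a b).val) =
      Finset.univ.filter fun p : Fin r => p.val < (v a b).val := rfl
  rw [this, Fin.card_filter_val_lt]
  have := (v a b).isLt
  omega

variable {r : ℕ} {ν : Measure Arr} {ρ : ℝ} {lev : ℝ → Fin (r + 1)}

/-- The law of one site given a positive configuration of the full tree. -/
theorem site_given_tree (hT : IsTreeArray ν ρ) (hl : IsLevel ν lev) {n₀ : ℕ} {ε : ℝ}
    (hε : 0 ≤ ε) (hε1 : ε ≤ 1) {κ : (D : ℕ) → Shape r D → ℝ} (hκ : KapSpec ν lev n₀ ε κ)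
    {D N : ℕ} (hD : D ≤ n₀) (u : Fin D → Fin N) (hu : Function.Injective u) (t : Shape r N)
    (ht : 0 < ν.real {ω | shp lev N ω = t}) :
    |(ν.real {ω | shp lev N ω = t})⁻¹ * ∫ ω, shpInd lev t ω * ∏ i, spin (ω.1 (u i) 0) ∂ν -
      κ D (subShape t u)| ≤ ε := by
  have := hT.prob
  set P := ν.real {ω | shp lev N ω = t} with hP
  set L := List.ofFn fun i => (u i : ℕ) with hL
  set G : Mat N → ℝ := fun T => if shapeOf lev T = t then 1 else 0 with hG
  have hGm : Measurable G := Measurable.ite
    (measurable_shapeOf hl _ (measurableSet_singleton t)) measurable_const measurable_const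
  have e := hT.site_factor N 1 (fun _ => L) G hGm
    fun T => by simp only [hG]; split_ifs <;> simp
  have eG : ∀ ω, G (tmat (idRep N) ω) = shpInd lev t ω := fun ω => rfl
  simp only [eG, Fin.prod_univ_one, Fin.val_zero, hL, spinProd_ofFn] at e
  rw [e]
  have h := key hT hl hε hε1 hκ hD u hu t
  set R := fun ω => rset (List.ofFn fun i => (u i : ℕ)) ω
  set k := κ D (subShape t u) with hk
  have hk1 : |k| ≤ 1 := (hκ D hD _).1
  have i1 : Integrable (fun ω => shpInd lev t ω * R ω) ν :=
    integrable_bdd ((measurable_shpInd hl t).mul (measurable_rset _)) 1 fun ω => by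
      unfold shpInd
      split_ifs
      · rw [one_mul]; exact abs_rset _ _
      · simp
  have i2 : Integrable (fun ω => shpInd lev t ω * k) ν :=
    integrable_bdd ((measurable_shpInd hl t).mul_const k) 1 fun ω => by
      unfold shpInd
      split_ifs
      · rw [one_mul]; exact hk1
      · simp
  have h2 : |(∫ ω, shpInd lev t ω * R ω ∂ν) - P * k| ≤ ε * P := by
    have : P * k = ∫ ω, shpInd lev t ω * k ∂ν := by
      rw [integral_mul_const, integral_shpInd hl]
    rw [this, ← integral_sub i1 i2]
    refine abs_integral_le_integral_abs.trans (le_trans (le_of_eq ?_) h)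
    refine integral_congr_ae (Eventually.of_forall fun ω => ?_)
    simp only [← mul_sub, abs_mul]
    congr 1
    unfold shpInd
    split_ifs <;> simp
  rw [show P⁻¹ * (∫ ω, shpInd lev t ω * R ω ∂ν) - k =
    P⁻¹ * ((∫ ω, shpInd lev t ω * R ω ∂ν) - P * k) by field_simp, abs_mul,
    abs_of_pos (inv_pos.2 ht), inv_mul_le_iff₀ ht]
  linarith

/-- The trial order parameter approximates every multi-overlap value. -/
theorem exists_trial (hT : IsTreeArray ν ρ) (hl : IsLevel ν lev) {n₀ : ℕ} {ε : ℝ} (hε : 0 ≤ ε)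
    (hε1 : ε ≤ 1) {κ : (D : ℕ) → Shape r D → ℝ} (hκ : KapSpec ν lev n₀ ε κ) (B : ℕ)
    (hB : 0 < B) :
    ∃ x : (Fin (r + 1) → ℝ) → ℝ, Measurable x ∧ (∀ ω, |x ω| ≤ 1) ∧
      ∀ (n : ℕ), n ≤ n₀ → ∀ (v : Shape r n), IsUltra v → ∀ A : Finset (Fin n),
        |mpSiteCorr x v A - κ A.card (subShape v fun i => A.orderEmbOfFin rfl i)| ≤
          ε + 2 * (r + 1) * (n₀ : ℝ) ^ 2 / B := by
  classical
  have := hT.prob
  have : Nonempty (Fin B) := ⟨⟨0, hB⟩⟩
  set N := Fintype.card (Path r B) with hN
  let e : Path r B ≃ Fin N := Fintype.equivFin _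
  let t : Shape r N := fun a b => treeShape (e.symm a) (e.symm b)
  have ht : IsUltra t := ⟨fun a => treeShape_self _, fun a b => treeShape_comm _ _,
    fun a b c => treeShape_tri _ _ _⟩
  set S : Set Arr := {ω | shp lev N ω = t} with hS
  have hSm : MeasurableSet S := measurableSet_shp hl N t
  have hP : 0 < ν.real S := shp_pos hT hl N t ht
  have hPne : ν S ≠ 0 := fun h => by simp [measureReal_def, h] at hP
  have : IsProbabilityMeasure ν[|S] := cond_isProbabilityMeasure hPne
  set conf : Arr → Fin N → Bool := fun ω l => ω.1 l 0 with hconf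
  have hconfm : Measurable conf := by rw [hconf]; fun_prop
  have : IsProbabilityMeasure ((ν[|S]).map conf) :=
    Measure.isProbabilityMeasure_map hconfm.aemeasurable
  obtain ⟨g, hg, hgmap⟩ := exists_sampler ((ν[|S]).map conf)
  obtain ⟨lab, hlab, hlabp⟩ := exists_label B hB
  let x : (Fin (r + 1) → ℝ) → ℝ := fun z => (B : ℝ)⁻¹ *
    ∑ c : Fin B, spin (g (z 0) (e (Fin.snoc (fun p : Fin r => lab (z p.succ)) c)))
  have hxm : Measurable x := by
    refine Measurable.const_mul (Finset.measurable_fun_sum _ fun c _ => ?_) _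
    have h1 : Measurable fun z : Fin (r + 1) → ℝ =>
        (g (z 0), fun p : Fin r => lab (z p.succ)) := by fun_prop
    exact (measurable_of_countable fun q : (Fin N → Bool) × (Fin r → Fin B) =>
      spin (q.1 (e (Fin.snoc q.2 c)))).comp h1
  have hBR : (0 : ℝ) < B := by exact_mod_cast hB
  refine ⟨x, hxm, fun z => ?_, fun n hn v hv A => ?_⟩
  · simp only [x, abs_mul, abs_inv, abs_of_pos hBR]
    rw [inv_mul_le_iff₀ hBR, mul_one]
    refine (Finset.abs_sum_le_sum_abs _ _).trans ?_
    simp [abs_spin]
  set κv := κ A.card (subShape v fun i => A.orderEmbOfFin rfl i) with hκv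
  let Φ : Labels r n B → (Fin N → Bool) → ℝ := fun H σ =>
    ∏ l ∈ A, spin (σ (e (pathOf v H l)))
  have step1 : ∀ (ω₀ : ℝ) (ω : Fin r → Fin n → ℝ),
      ∏ l ∈ A, x (Fin.cons ω₀ (shapeMarks v ω l)) = (B : ℝ)⁻¹ ^ n *
        ∑ c : Fin n → Fin B, Φ (Sum.elim (fun q => lab (ω q.1 q.2)) c) (g ω₀) := by
    intro ω₀ ω
    let T : Fin n → Fin B → ℝ := fun l c => if l ∈ A then
      spin (g ω₀ (e (Fin.snoc (fun p : Fin r => lab (ω p (shapeRep v (p.val + 1) l))) c))) else 1
    have h1 : ∏ l ∈ A, x (Fin.cons ω₀ (shapeMarks v ω l)) =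
        ∏ l, (B : ℝ)⁻¹ * ∑ c, T l c := by
      refine Finset.prod_subset_one_on_sdiff (Finset.subset_univ A) (fun l hl => ?_) fun l hl => ?_
      · simp only [Finset.mem_sdiff] at hl
        simp [T, hl.2, hBR.ne']
      · simp [T, x, hl, shapeMarks]
    rw [h1, Finset.prod_mul_distrib, Finset.prod_const, Finset.card_univ, Fintype.card_fin,
      Fintype.prod_sum]
    refine congrArg _ (Finset.sum_congr rfl fun c _ => ?_)
    simp [T, Φ, pathOf, Finset.prod_ite_mem]
  have step2 : ∀ φ : (Fin r → Fin n → Fin B) → ℝ,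
      ∫ ω : Fin r → Fin n → ℝ, φ (fun p l => lab (ω p l))
        ∂(Measure.pi fun _ => Measure.pi fun _ => unif) =
      (B : ℝ)⁻¹ ^ (r * n) * ∑ G, φ G := by
    intro φ
    have hm : Measurable fun (ω : Fin r → Fin n → ℝ) (p : Fin r) (l : Fin n) => lab (ω p l) := by
      fun_prop
    rw [← integral_map (f := φ) hm.aemeasurable (measurable_of_countable φ).aestronglyMeasurable,
      integral_fintype Integrable.of_finite, Finset.mul_sum]
    refine Finset.sum_congr rfl fun G _ => ?_
    rw [smul_eq_mul, measureReal_def, Measure.map_apply hm (measurableSet_singleton G)]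
    congr 1
    have : (fun (ω : Fin r → Fin n → ℝ) (p : Fin r) (l : Fin n) => lab (ω p l)) ⁻¹' {G} =
        Set.univ.pi fun p => Set.univ.pi fun l => lab ⁻¹' {G p l} := by
      ext ω; simp [funext_iff]
    rw [this, Measure.pi_pi]
    simp only [Measure.pi_pi, ENNReal.toReal_prod, ← measureReal_def, hlabp, Finset.prod_const,
      Finset.card_univ, Fintype.card_fin, ← pow_mul, mul_comm n r]
  let I : Labels r n B → ℝ := fun H => ∫ ω₀, Φ H (g ω₀) ∂unif
  have hΦm : ∀ H, Measurable fun ω₀ => Φ H (g ω₀) := fun H =>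
    (measurable_of_countable (Φ H)).comp hg
  have hΦint : ∀ H, Integrable (fun ω₀ => Φ H (g ω₀)) unif := fun H =>
    Integrable.of_bound (hΦm H).aestronglyMeasurable 1
      (Eventually.of_forall fun ω₀ => (abs_prod_spin A _).le)
  have hcorr : mpSiteCorr x v A =
      (Fintype.card (Labels r n B) : ℝ)⁻¹ * ∑ H, I H := by
    have h3 : ∀ ω₀, ∫ ω : Fin r → Fin n → ℝ, ∏ l ∈ A, x (Fin.cons ω₀ (shapeMarks v ω l))
        ∂(Measure.pi fun _ => Measure.pi fun _ => unif) =
        (Fintype.card (Labels r n B) : ℝ)⁻¹ * ∑ H, Φ H (g ω₀) := by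
      intro ω₀
      simp only [step1]
      rw [step2 fun G => (B : ℝ)⁻¹ ^ n *
        ∑ c : Fin n → Fin B, Φ (Sum.elim (fun q => G q.1 q.2) c) (g ω₀)]
      rw [← Finset.mul_sum, ← mul_assoc, ← pow_add]
      refine congrArg₂ (· * ·) ?_ ?_
      · simp [Fintype.card_sum, inv_pow, add_comm]
      · rw [← Fintype.sum_prod_type']
        refine Fintype.sum_equiv ((Equiv.prodCongr (Equiv.curry _ _ _).symm (Equiv.refl _)).trans
          (Equiv.sumArrowEquivProdArrow _ _ _).symm) _ _ fun q => ?_
        rfl
    unfold mpSiteCorr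
    simp only [h3]
    rw [integral_const_mul, integral_finsetSum _ fun H _ => hΦint H]
  have hI1 : ∀ H, |I H| ≤ 1 := fun H => by
    refine (abs_integral_le_integral_abs).trans ?_
    simp [Φ, abs_prod_spin]
  let Bad : Labels r n B → Prop := fun H =>
    ∃ i j, i ≠ j ∧ ((∃ p, H (Sum.inl (p, i)) = H (Sum.inl (p, j))) ∨
      H (Sum.inr i) = H (Sum.inr j))
  have hgood : ∀ H, ¬ Bad H → |I H - κv| ≤ ε := by
    intro H hH
    have hinj : ∀ p a b, a ≠ b → H (Sum.inl (p, a)) ≠ H (Sum.inl (p, b)) :=
      fun p a b hab h => hH ⟨a, b, hab, Or.inl ⟨p, h⟩⟩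
    let u : Fin A.card → Fin N := fun i => e (pathOf v H (A.orderEmbOfFin rfl i))
    have hu : Function.Injective u := by
      intro i j hij
      have h1 := congrFun (e.injective hij) (Fin.last r)
      simp only [pathOf, Fin.snoc_last] at h1
      refine (A.orderEmbOfFin rfl).injective ?_
      by_contra hne
      exact hH ⟨_, _, hne, Or.inr h1⟩
    have hcard : A.card ≤ n₀ := ((Finset.card_le_univ A).trans (by simp)).trans hn
    have h := site_given_tree hT hl hε hε1 hκ hcard u hu t hP
    have ht2 : subShape t u = subShape v fun i => A.orderEmbOfFin rfl i := by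
      funext a b
      simp only [subShape, t, u, Equiv.symm_apply_apply, treeShape_pathOf hv hinj]
    rw [ht2] at h
    refine le_trans (le_of_eq ?_) h
    rw [← hκv]
    congr 2
    simp only [I]
    rw [← integral_map hg.aemeasurable (measurable_of_countable (Φ H)).aestronglyMeasurable, hgmap,
      integral_map hconfm.aemeasurable (measurable_of_countable (Φ H)).aestronglyMeasurable,
      ProbabilityTheory.cond, integral_smul_measure, ENNReal.toReal_inv, smul_eq_mul,
      ← measureReal_def]
    congr 1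
    rw [← integral_indicator hSm]
    refine integral_congr_ae (Eventually.of_forall fun ω => ?_)
    have hprod : Φ H (conf ω) = ∏ i, spin (ω.1 (u i) 0) := by
      simp only [Φ, hconf, u]
      have h4 := Finset.prod_map Finset.univ (A.orderEmbOfFin rfl).toEmbedding
        (fun l => spin (ω.1 (e (pathOf v H l) : ℕ) 0))
      rw [Finset.map_orderEmbOfFin_univ] at h4
      exact h4
    by_cases hω : ω ∈ S
    · rw [Set.indicator_of_mem hω, hprod]
      simp [shpInd, show shp lev N ω = t from hω]
    · rw [Set.indicator_of_notMem hω]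
      simp [shpInd, show ¬ shp lev N ω = t from hω]
  set C : ℝ := (Fintype.card (Labels r n B) : ℝ) with hC
  have hC0 : 0 < C := by
    rw [hC]
    exact_mod_cast Fintype.card_pos
  have hbad : ((Finset.univ.filter Bad).card : ℝ) * B ≤ (r + 1) * (n₀ : ℝ) ^ 2 * C := by
    let pairs : Finset ((Fin n × Fin n) × Option (Fin r)) :=
      Finset.univ.filter fun q => q.1.1 ≠ q.1.2
    let sel : (Fin n × Fin n) × Option (Fin r) → Finset (Labels r n B) := fun q =>
      match q.2 with
      | some p => Finset.univ.filter fun H => H (Sum.inl (p, q.1.1)) = H (Sum.inl (p, q.1.2))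
      | none => Finset.univ.filter fun H => H (Sum.inr q.1.1) = H (Sum.inr q.1.2)
    have hsub : Finset.univ.filter Bad ⊆ pairs.biUnion sel := by
      intro H hH
      obtain ⟨i, j, hij, hc⟩ := (Finset.mem_filter.1 hH).2
      rcases hc with ⟨p, hp⟩ | hc
      · exact Finset.mem_biUnion.2 ⟨((i, j), some p), by simp [pairs, hij], by simp [sel, hp]⟩
      · exact Finset.mem_biUnion.2 ⟨((i, j), none), by simp [pairs, hij], by simp [sel, hc]⟩
    have hone : ∀ q ∈ pairs, (sel q).card * B = Fintype.card (Labels r n B) := by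
      rintro ⟨⟨i, j⟩, o⟩ hq
      simp only [pairs, Finset.mem_filter, Finset.mem_univ, true_and] at hq
      cases o with
      | some p => exact card_collide B fun h => hq (congrArg Prod.snd (Sum.inl.inj h))
      | none => exact card_collide B fun h => hq (Sum.inr.inj h)
    have h1 : (Finset.univ.filter Bad).card * B ≤
        pairs.card * Fintype.card (Labels r n B) := by
      refine (Nat.mul_le_mul_right _ ((Finset.card_le_card hsub).trans Finset.card_biUnion_le)).trans ?_
      rw [Finset.sum_mul, Finset.sum_congr rfl hone, Finset.sum_const, smul_eq_mul]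
    have h2 : pairs.card ≤ (r + 1) * n₀ ^ 2 := by
      refine (Finset.card_le_univ _).trans ?_
      simp only [Fintype.card_prod, Fintype.card_fin, Fintype.card_option]
      calc n * n * (r + 1) ≤ n₀ * n₀ * (r + 1) :=
            Nat.mul_le_mul_right _ (Nat.mul_le_mul hn hn)
        _ = _ := by ring
    have h3 := h1.trans (Nat.mul_le_mul_right _ h2)
    rw [hC]
    exact_mod_cast h3
  have hκ1 : |κv| ≤ 1 :=
    (hκ _ (((Finset.card_le_univ A).trans (by simp)).trans hn) _).1
  have hterm : ∀ H, |I H - κv| ≤ ε + 2 * if Bad H then 1 else 0 := by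
    intro H
    by_cases h : Bad H
    · rw [if_pos h]
      have := abs_sub (I H) κv
      linarith [hI1 H]
    · rw [if_neg h]
      linarith [hgood H h]
  rw [hcorr]
  calc |C⁻¹ * ∑ H, I H - κv| = C⁻¹ * |∑ H, (I H - κv)| := by
        rw [Finset.sum_sub_distrib, Finset.sum_const, nsmul_eq_mul, Finset.card_univ, ← hC,
          ← abs_of_pos (inv_pos.2 hC0), ← abs_mul, abs_of_pos (inv_pos.2 hC0)]
        congr 1
        field_simp
    _ ≤ C⁻¹ * ∑ H, (ε + 2 * if Bad H then 1 else 0) :=
        mul_le_mul_of_nonneg_left ((Finset.abs_sum_le_sum_abs _ _).trans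
          (Finset.sum_le_sum fun H _ => hterm H)) (inv_nonneg.2 hC0.le)
    _ ≤ _ := by
        rw [Finset.sum_add_distrib, ← Finset.mul_sum, Finset.sum_boole, Finset.sum_const,
          nsmul_eq_mul, Finset.card_univ, ← hC, mul_add, ← mul_assoc, inv_mul_cancel₀ hC0.ne',
          one_mul, add_le_add_iff_left, le_div_iff₀ hBR, inv_mul_eq_div, div_mul_eq_mul_div,
          div_le_iff₀ hC0]
        nlinarith [hbad]

end Vale.Agent.P168.AssemblyMP
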